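import Vale.Agent.P066.Two.Colour

/-!
# Atoms and the action of the two operators on them
The operators only enter through their values on `Phi A B`, so this is linear algebra.
-/

open Finset

namespace Vale.Agent.P066.Two

variable {R : Type*} [CommRing R] (q : R)
variable {V V' : Type*} [AddCommGroup V] [Module R V] [AddCommGroup V'] [Module R V']

/-- The atom `X(s,t,M)`. -/
def atom (F : ℕ → ℕ → V) (s t M : ℕ) : V :=
  ∑ i ∈ range s, (q ^ i * qi q (s - i)) • F (M - i) i
    + ∑ i ∈ range t, (q ^ s * qi q (t - i)) • F i (M - i)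

lemma qi_add (m n : ℕ) : qi q (m + n) = qi q m + q ^ m * qi q n := by
  simp [qi, sum_range_add, mul_sum, pow_add]

lemma qi_one : qi q 1 = 1 := by simp [qi]

lemma qi_succ' (m : ℕ) : qi q (m + 1) = 1 + q * qi q m := by
  rw [add_comm, qi_add, qi_one, pow_one]

/-- Split off the first term when the term after the last one vanishes. -/
lemma sum_shift {M : Type*} [AddCommMonoid M] {f : ℕ → M} {n : ℕ} (h : f n = 0) :
    ∑ j ∈ range n, f j = ∑ i ∈ range n, f (i + 1) + f 0 := by
  rw [← sum_range_succ', sum_range_succ, h, add_zero]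

lemma sumA (r : ℕ) :
    ∑ k ∈ range r, q ^ k * qi q (r - k) + ∑ k ∈ range r, q ^ r * qi q (r - k)
      = qi q r * qi q (r + 1) := by
  induction r with
  | zero => simp [qi_zero]
  | succ r ih =>
    rw [sum_range_succ', sum_range_succ']
    simp only [Nat.succ_sub_succ, Nat.sub_zero, pow_zero, one_mul, pow_succ', mul_assoc, ← mul_sum]
    rw [← mul_sum] at ih
    rw [qi_succ' q (r + 1)]
    have h : qi q (r + 1) = qi q r + q ^ r := qi_succ q r
    linear_combination q * ih - q * qi q (r + 1) * h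

lemma sumB (r : ℕ) :
    ∑ k ∈ range (r + 1), q ^ k * qi q (r + 1 - k) + ∑ k ∈ range r, q ^ (r + 1) * qi q (r - k)
      = qi q (r + 1) * qi q (r + 1) := by
  have h := sumA q r
  rw [← mul_sum] at h
  rw [sum_range_succ', ← mul_sum]
  simp only [Nat.succ_sub_succ, Nat.sub_zero, pow_zero, one_mul, pow_succ', mul_assoc, ← mul_sum]
  linear_combination q * h - qi q (r + 1) * qi_succ' q r

/-- `∑_i w_i δ_i = ∑_j W_j D_j` for nested divided differences. -/
lemma sum_divDiff (F : ℕ → ℕ → V) {s t M : ℕ} (hts : t ≤ s) (hs : 2 * s ≤ M + 2)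
    (u v : ℕ → R) :
    ∑ i ∈ range s, u i • divDiff F (M - i) i + ∑ i ∈ range t, v i • divDiff F i (M - i)
      = ∑ j ∈ range s, (∑ k ∈ range (s - j), u (j + k) + ∑ k ∈ range (t - j), v (j + k))
          • (F (M + 1 - j) j - F j (M + 1 - j)) := by
  set δ : ℕ → V := fun j => F (M + 1 - j) j - F j (M + 1 - j) with hδ
  have hd : ∀ i < s, divDiff F (M - i) i = ∑ j ∈ range (i + 1), δ j := fun i hi => by
    rw [divDiff, min_eq_right (by omega), show M - i + i = M by omega]
  have key : ∀ (n : ℕ) (w : ℕ → R), n ≤ s →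
      ∑ i ∈ range n, w i • (∑ j ∈ range (i + 1), δ j)
        = ∑ j ∈ range s, (∑ k ∈ range (n - j), w (j + k)) • δ j := by
    intro n w hn
    simp only [smul_sum, sum_smul]
    rw [sum_comm' (t' := range n) (s' := fun j => Ico j n)
      (fun i j => by simp only [mem_range, mem_Ico]; omega)]
    rw [← sum_subset (range_subset_range.2 hn) (fun j _ hj => by
      rw [mem_range] at hj; simp [show n - j = 0 by omega])]
    exact sum_congr rfl fun j _ => by rw [sum_Ico_eq_sum_range]
  have h1 : ∑ i ∈ range s, u i • divDiff F (M - i) i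
      = ∑ i ∈ range s, u i • (∑ j ∈ range (i + 1), δ j) :=
    sum_congr rfl fun i hi => by rw [hd i (mem_range.1 hi)]
  have h2 : ∑ i ∈ range t, v i • divDiff F i (M - i)
      = ∑ i ∈ range t, v i • (∑ j ∈ range (i + 1), δ j) :=
    sum_congr rfl fun i hi => by
      rw [divDiff_comm, hd i (lt_of_lt_of_le (mem_range.1 hi) hts)]
  rw [h1, h2, key s u le_rfl, key t v hts, ← sum_add_distrib]
  exact sum_congr rfl fun j _ => by rw [add_smul]

lemma sum_divDiff_eq (F : ℕ → ℕ → V) {a M : ℕ} (ha : 2 * a ≤ M + 2) :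
    ∑ i ∈ range a, (q ^ i * qi q (a - i)) • divDiff F (M - i) i
      + ∑ i ∈ range a, (q ^ a * qi q (a - i)) • divDiff F i (M - i)
      = ∑ j ∈ range a, (q ^ j * (qi q (a - j) * qi q (a - j + 1)))
          • (F (M + 1 - j) j - F j (M + 1 - j)) := by
  rw [sum_divDiff F le_rfl ha]
  refine sum_congr rfl fun j hj => ?_
  rw [mem_range] at hj
  congr 1
  rw [← sumA, mul_add, mul_sum, mul_sum]
  congr 1 <;> refine sum_congr rfl fun k hk => ?_
  · rw [show a - (j + k) = a - j - k by omega, pow_add]; ring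
  · rw [show a - (j + k) = a - j - k by omega, show q ^ a = q ^ j * q ^ (a - j) by
      rw [← pow_add]; congr 1; omega]; ring

lemma sum_divDiff_succ (F : ℕ → ℕ → V) {a M : ℕ} (ha : 2 * a ≤ M) :
    ∑ i ∈ range (a + 1), (q ^ i * qi q (a + 1 - i)) • divDiff F (M - i) i
      + ∑ i ∈ range a, (q ^ (a + 1) * qi q (a - i)) • divDiff F i (M - i)
      = ∑ j ∈ range (a + 1), (q ^ j * (qi q (a + 1 - j) * qi q (a + 1 - j)))
          • (F (M + 1 - j) j - F j (M + 1 - j)) := by
  rw [sum_divDiff F (Nat.le_succ a) (by omega)]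
  refine sum_congr rfl fun j hj => ?_
  rw [mem_range] at hj
  congr 1
  rw [show a + 1 - j = a - j + 1 by omega, ← sumB, mul_add, mul_sum, mul_sum]
  congr 1 <;> refine sum_congr rfl fun k hk => ?_
  · rw [show a + 1 - (j + k) = a - j + 1 - k by omega, pow_add]; ring
  · rw [show a - (j + k) = a - j - k by omega, show q ^ (a + 1) = q ^ j * q ^ (a - j + 1) by
      rw [← pow_add]; congr 1; omega]; ring

variable (e : ℕ → R)

/-- Linearity: the image of a weighted family. -/
lemma map_family (T : V →ₗ[R] V') (F : ℕ → ℕ → V) (Φ Z Y : ℕ → ℕ → V') (c : ℕ → R)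
    (G : ℕ → V') (κ lam : R) (idx : ℕ → ℕ × ℕ) (w : ℕ → R) (n : ℕ)
    (hT : ∀ A B, T (F A B)
      = Φ A B + κ • divDiff Z A B + c A • G B - lam • divDiff Y A B) :
    T (∑ i ∈ range n, w i • F (idx i).1 (idx i).2)
      = ∑ i ∈ range n, w i • Φ (idx i).1 (idx i).2
        + κ • ∑ i ∈ range n, w i • divDiff Z (idx i).1 (idx i).2
        + ∑ i ∈ range n, (w i * c (idx i).1) • G (idx i).2
        - lam • ∑ i ∈ range n, w i • divDiff Y (idx i).1 (idx i).2 := by
  simp only [map_sum, map_smul, hT, smul_sum, ← sum_add_distrib, ← sum_sub_distrib]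
  exact sum_congr rfl fun i _ => by module

variable {e} {F : ℕ → ℕ → V}

/-- `P` on `X(a,a,M)`. -/
theorem opP_atom_eq (T : V →ₗ[R] V) (he : e 0 = 1)
    (hT : ∀ A B, T (F A B) = F B (A + 1) + (q - 1) • divDiff (fun i j => F j i) A B
      + (q * qi q A * e (A + 1)) • F B 0 - q • divDiff (fun i j => e i • F j 0) A B)
    {a M : ℕ} (ha : 1 ≤ a) (hM : 2 * a ≤ M + 2) :
    T (atom q F a a M) = atom q F (a + 1) a (M + 1)
      + ∑ j ∈ range (a + 1), (qi q (a - 1) * q ^ (j + 1) * qi q (a + 1 - j) * e j)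
          • F (M + 1 - j) 0
      + ∑ j ∈ range a, (q ^ (j + 1) * qi q (a - j) * (qi q (M - j) - qi q (a - j + 1))
          * e (M + 1 - j)) • F j 0 := by
  set Z : ℕ → ℕ → V := fun i j => F j i with hZ
  set Y : ℕ → ℕ → V := fun i j => e i • F j 0 with hY
  have m1 := map_family T F (fun A B => F B (A + 1)) Z Y (fun A => q * qi q A * e (A + 1))
    (fun B => F B 0) (q - 1) q (fun i => (M - i, i)) (fun i => q ^ i * qi q (a - i)) a hT
  have m2 := map_family T F (fun A B => F B (A + 1)) Z Y (fun A => q * qi q A * e (A + 1))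
    (fun B => F B 0) (q - 1) q (fun i => (i, M - i)) (fun i => q ^ a * qi q (a - i)) a hT
  dsimp only at m1 m2
  have cz := sum_divDiff_eq q Z hM
  have cy := sum_divDiff_eq q Y hM
  simp only [hZ, smul_sub, sum_sub_distrib] at cz
  simp only [hY, smul_sub, sum_sub_distrib, smul_smul] at cy
  rw [sum_shift (f := fun j => (q ^ j * (qi q (a - j) * qi q (a - j + 1))) • F (M + 1 - j) j)
    (by simp [qi_zero])] at cz
  rw [sum_shift
    (f := fun j => (q ^ j * (qi q (a - j) * qi q (a - j + 1)) * e j) • F (M + 1 - j) 0)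
    (by simp [qi_zero])] at cy
  simp only [pow_zero, one_mul, Nat.sub_zero, Nat.add_sub_add_right, he, mul_one] at cz cy
  have t1 : ∑ i ∈ range a, (q ^ i * qi q (a - i)) • F i (M - i + 1)
      = ∑ i ∈ range a, (q ^ i * qi q (a - i)) • F i (M + 1 - i) :=
    sum_congr rfl fun i hi => by
      rw [mem_range] at hi; rw [show M - i + 1 = M + 1 - i by omega]
  have t2 : ∑ i ∈ range a, (q ^ i * qi q (a - i) * (q * qi q (M - i) * e (M - i + 1))) • F i 0
      = ∑ i ∈ range a, (q ^ i * qi q (a - i) * (q * qi q (M - i) * e (M + 1 - i))) • F i 0 :=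
    sum_congr rfl fun i hi => by
      rw [mem_range] at hi; rw [show M - i + 1 = M + 1 - i by omega]
  have eA : ∑ j ∈ range a, (q ^ j * qi q (a - j)) • F j (M + 1 - j)
      + (q - 1) • ∑ j ∈ range a, (q ^ j * (qi q (a - j) * qi q (a - j + 1))) • F j (M + 1 - j)
      = ∑ j ∈ range a, (q ^ (a + 1) * qi q (a - j)) • F j (M + 1 - j) := by
    simp only [smul_sum, smul_smul, ← sum_add_distrib, ← add_smul]
    refine sum_congr rfl fun j hj => ?_
    obtain ⟨r, rfl⟩ : ∃ r, a = j + r := ⟨a - j, by rw [mem_range] at hj; omega⟩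
    congr 1
    rw [Nat.add_sub_cancel_left]
    linear_combination q ^ j * qi q r * qi_cancel q (r + 1)
  have eB : ∑ i ∈ range a, (q ^ a * qi q (a - i)) • F (M - i) (i + 1)
      - (q - 1) • ∑ i ∈ range a, (q ^ (i + 1) * (qi q (a - (i + 1)) * qi q (a - (i + 1) + 1)))
          • F (M - i) (i + 1)
      = ∑ i ∈ range a, (q ^ (i + 1) * qi q (a - i)) • F (M - i) (i + 1) := by
    simp only [smul_sum, smul_smul, ← sum_sub_distrib, ← sub_smul]
    refine sum_congr rfl fun i hi => ?_
    obtain ⟨r, rfl⟩ : ∃ r, a = i + 1 + r := ⟨a - i - 1, by rw [mem_range] at hi; omega⟩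
    congr 1
    rw [Nat.add_sub_cancel_left, show i + 1 + r - i = r + 1 by omega]
    linear_combination -(q ^ (i + 1) * qi q (r + 1)) * qi_cancel q r
  have eC : ∑ i ∈ range a, (q ^ a * qi q (a - i) * (q * qi q i * e (i + 1))) • F (M - i) 0
      + q • ∑ i ∈ range a,
          (q ^ (i + 1) * (qi q (a - (i + 1)) * qi q (a - (i + 1) + 1)) * e (i + 1)) • F (M - i) 0
      = ∑ i ∈ range a, (qi q (a - 1) * q ^ (i + 2) * qi q (a - i) * e (i + 1)) • F (M - i) 0 := by
    simp only [smul_sum, smul_smul, ← sum_add_distrib, ← add_smul]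
    refine sum_congr rfl fun i hi => ?_
    obtain ⟨r, rfl⟩ : ∃ r, a = i + 1 + r := ⟨a - i - 1, by rw [mem_range] at hi; omega⟩
    congr 1
    rw [Nat.add_sub_cancel_left, show i + 1 + r - i = r + 1 by omega,
      show i + 1 + r - 1 = r + i by omega, qi_add q r i]
    ring
  have eD : ∑ j ∈ range a, (q ^ j * qi q (a - j) * (q * qi q (M - j) * e (M + 1 - j))) • F j 0
      - q • ∑ j ∈ range a,
          (q ^ j * (qi q (a - j) * qi q (a - j + 1)) * e (M + 1 - j)) • F j 0
      = ∑ j ∈ range a, (q ^ (j + 1) * qi q (a - j) * (qi q (M - j) - qi q (a - j + 1))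
          * e (M + 1 - j)) • F j 0 := by
    simp only [smul_sum, smul_smul, ← sum_sub_distrib, ← sub_smul]
    exact sum_congr rfl fun j _ => by congr 1; ring
  have e0 : (qi q a * qi q (a + 1)) • F (M + 1) 0
      = qi q (a + 1) • F (M + 1) 0
        + (qi q (a - 1) * q * qi q (a + 1)) • F (M + 1) 0 := by
    obtain ⟨b, rfl⟩ : ∃ b, a = b + 1 := ⟨a - 1, by omega⟩
    rw [Nat.add_sub_cancel, ← add_smul, qi_succ' q b]
    congr 1; ring
  rw [atom, map_add, m1, m2, atom, sum_range_succ' _ a, sum_range_succ' _ a]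
  simp only [pow_zero, pow_one, one_mul, mul_one, zero_add, Nat.sub_zero, Nat.add_sub_add_right,
    he, add_assoc, show (1 + 1 : ℕ) = 2 from rfl] at *
  linear_combination (norm := module) t1 + t2 + eA + eB + eC + eD + e0 + (q - 1) • cz - q • cy

/-- `P` on `X(a+1,a,M)`. -/
theorem opP_atom_succ (T : V →ₗ[R] V) (he : e 0 = 1)
    (hT : ∀ A B, T (F A B) = F B (A + 1) + (q - 1) • divDiff (fun i j => F j i) A B
      + (q * qi q A * e (A + 1)) • F B 0 - q • divDiff (fun i j => e i • F j 0) A B)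
    {a M : ℕ} (hM : 2 * a ≤ M) :
    T (atom q F (a + 1) a M) = atom q F (a + 1) (a + 1) (M + 1)
      + ∑ j ∈ range (a + 1), (qi q a * q ^ (j + 1) * qi q (a + 1 - j) * e j) • F (M + 1 - j) 0
      + ∑ j ∈ range (a + 1), (q ^ (j + 1) * qi q (a + 1 - j) * (qi q (M - j) - qi q (a + 1 - j))
          * e (M + 1 - j)) • F j 0 := by
  set Z : ℕ → ℕ → V := fun i j => F j i with hZ
  set Y : ℕ → ℕ → V := fun i j => e i • F j 0 with hY
  have m1 := map_family T F (fun A B => F B (A + 1)) Z Y (fun A => q * qi q A * e (A + 1))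
    (fun B => F B 0) (q - 1) q (fun i => (M - i, i)) (fun i => q ^ i * qi q (a + 1 - i)) (a + 1) hT
  have m2 := map_family T F (fun A B => F B (A + 1)) Z Y (fun A => q * qi q A * e (A + 1))
    (fun B => F B 0) (q - 1) q (fun i => (i, M - i)) (fun i => q ^ (a + 1) * qi q (a - i)) a hT
  dsimp only at m1 m2
  have cz := sum_divDiff_succ q Z hM
  have cy := sum_divDiff_succ q Y hM
  simp only [hZ, smul_sub, sum_sub_distrib] at cz
  simp only [hY, smul_sub, sum_sub_distrib, smul_smul] at cy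
  rw [sum_range_succ' (fun j => (q ^ j * (qi q (a + 1 - j) * qi q (a + 1 - j))) • F (M + 1 - j) j)]
    at cz
  rw [sum_range_succ' (fun j => (q ^ j * (qi q (a + 1 - j) * qi q (a + 1 - j)) * e j)
    • F (M + 1 - j) 0)] at cy
  simp only [pow_zero, one_mul, Nat.sub_zero, Nat.add_sub_add_right, he, mul_one] at cz cy
  have t1 : ∑ i ∈ range (a + 1), (q ^ i * qi q (a + 1 - i)) • F i (M - i + 1)
      = ∑ i ∈ range (a + 1), (q ^ i * qi q (a + 1 - i)) • F i (M + 1 - i) :=
    sum_congr rfl fun i hi => by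
      rw [mem_range] at hi; rw [show M - i + 1 = M + 1 - i by omega]
  have t2 : ∑ i ∈ range (a + 1),
        (q ^ i * qi q (a + 1 - i) * (q * qi q (M - i) * e (M - i + 1))) • F i 0
      = ∑ i ∈ range (a + 1),
        (q ^ i * qi q (a + 1 - i) * (q * qi q (M - i) * e (M + 1 - i))) • F i 0 :=
    sum_congr rfl fun i hi => by
      rw [mem_range] at hi; rw [show M - i + 1 = M + 1 - i by omega]
  have eA : ∑ j ∈ range (a + 1), (q ^ j * qi q (a + 1 - j)) • F j (M + 1 - j)
      + (q - 1) • ∑ j ∈ range (a + 1),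
          (q ^ j * (qi q (a + 1 - j) * qi q (a + 1 - j))) • F j (M + 1 - j)
      = ∑ j ∈ range (a + 1), (q ^ (a + 1) * qi q (a + 1 - j)) • F j (M + 1 - j) := by
    simp only [smul_sum, smul_smul, ← sum_add_distrib, ← add_smul]
    refine sum_congr rfl fun j hj => ?_
    obtain ⟨r, rfl⟩ : ∃ r, a = j + r := ⟨a - j, by rw [mem_range] at hj; omega⟩
    congr 1
    rw [show j + r + 1 - j = r + 1 by omega]
    linear_combination q ^ j * qi q (r + 1) * qi_cancel q (r + 1)
  have eB : ∑ i ∈ range a, (q ^ (a + 1) * qi q (a - i)) • F (M - i) (i + 1)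
      - (q - 1) • ∑ i ∈ range a, (q ^ (i + 1) * (qi q (a - i) * qi q (a - i))) • F (M - i) (i + 1)
      = ∑ i ∈ range a, (q ^ (i + 1) * qi q (a - i)) • F (M - i) (i + 1) := by
    simp only [smul_sum, smul_smul, ← sum_sub_distrib, ← sub_smul]
    refine sum_congr rfl fun i hi => ?_
    obtain ⟨r, rfl⟩ : ∃ r, a = i + r := ⟨a - i, by rw [mem_range] at hi; omega⟩
    congr 1
    rw [Nat.add_sub_cancel_left]
    linear_combination -(q ^ (i + 1) * qi q r) * qi_cancel q r
  have eC : ∑ i ∈ range a, (q ^ (a + 1) * qi q (a - i) * (q * qi q i * e (i + 1))) • F (M - i) 0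
      + q • ∑ i ∈ range a, (q ^ (i + 1) * (qi q (a - i) * qi q (a - i)) * e (i + 1)) • F (M - i) 0
      = ∑ i ∈ range a, (qi q a * q ^ (i + 2) * qi q (a - i) * e (i + 1)) • F (M - i) 0 := by
    simp only [smul_sum, smul_smul, ← sum_add_distrib, ← add_smul]
    refine sum_congr rfl fun i hi => ?_
    obtain ⟨r, rfl⟩ : ∃ r, a = i + r := ⟨a - i, by rw [mem_range] at hi; omega⟩
    congr 1
    rw [Nat.add_sub_cancel_left, show qi q (i + r) = qi q r + q ^ r * qi q i by
      rw [add_comm i r, qi_add]]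
    ring
  have eD : ∑ j ∈ range (a + 1),
        (q ^ j * qi q (a + 1 - j) * (q * qi q (M - j) * e (M + 1 - j))) • F j 0
      - q • ∑ j ∈ range (a + 1),
          (q ^ j * (qi q (a + 1 - j) * qi q (a + 1 - j)) * e (M + 1 - j)) • F j 0
      = ∑ j ∈ range (a + 1), (q ^ (j + 1) * qi q (a + 1 - j) * (qi q (M - j) - qi q (a + 1 - j))
          * e (M + 1 - j)) • F j 0 := by
    simp only [smul_sum, smul_smul, ← sum_sub_distrib, ← sub_smul]
    exact sum_congr rfl fun j _ => by congr 1; ring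
  have e0 : (qi q (a + 1) * qi q (a + 1)) • F (M + 1) 0
      = qi q (a + 1) • F (M + 1) 0 + (qi q a * q * qi q (a + 1)) • F (M + 1) 0 := by
    rw [← add_smul]
    congr 1
    linear_combination qi q (a + 1) * qi_succ' q a
  have sA : atom q F (a + 1) (a + 1) (M + 1)
      = ∑ i ∈ range a, (q ^ (i + 1) * qi q (a - i)) • F (M - i) (i + 1)
        + qi q (a + 1) • F (M + 1) 0
        + ∑ j ∈ range (a + 1), (q ^ (a + 1) * qi q (a + 1 - j)) • F j (M + 1 - j) := by
    rw [atom, sum_range_succ' _ a]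
    simp only [pow_zero, one_mul, Nat.sub_zero, Nat.add_sub_add_right]
  rw [sA, sum_range_succ' (fun j => (qi q a * q ^ (j + 1) * qi q (a + 1 - j) * e j)
    • F (M + 1 - j) 0), atom, map_add, m1, m2]
  simp only [pow_zero, pow_one, one_mul, mul_one, zero_add, Nat.sub_zero, Nat.add_sub_add_right,
    he, add_assoc, show (1 + 1 : ℕ) = 2 from rfl] at *
  linear_combination (norm := module) t1 + t2 + eA + eB + eC + eD + e0 + (q - 1) • cz - q • cy

variable {G : ℕ → V'}

lemma map_family' (T : V →ₗ[R] V') (F : ℕ → ℕ → V) (Y : ℕ → ℕ → V') (c : ℕ → R)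
    (idx : ℕ → ℕ × ℕ) (w : ℕ → R) (n : ℕ)
    (hT : ∀ A B, T (F A B) = c A • G B - divDiff Y A B) :
    T (∑ i ∈ range n, w i • F (idx i).1 (idx i).2)
      = ∑ i ∈ range n, (w i * c (idx i).1) • G (idx i).2
        - ∑ i ∈ range n, w i • divDiff Y (idx i).1 (idx i).2 := by
  simp only [map_sum, map_smul, hT, ← sum_sub_distrib, smul_sub, smul_smul]

/-- `D` on `X(a,a,M)`. -/
theorem opD_atom_eq (T : V →ₗ[R] V') (he : e 0 = 1)
    (hT : ∀ A B, T (F A B) = (qi q (A + 1) * e (A + 1)) • G B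
      - divDiff (fun i j => e i • G j) A B)
    {a M : ℕ} (hM : 2 * a ≤ M + 2) :
    T (atom q F a a M) = ∑ j ∈ range (a + 1), (qi q a * q ^ j * qi q (a + 1 - j) * e j) • G (M + 1 - j)
      + ∑ j ∈ range a, (q ^ j * qi q (a - j) * (qi q (M + 1 - j) - qi q (a - j + 1))
          * e (M + 1 - j)) • G j := by
  set Y : ℕ → ℕ → V' := fun i j => e i • G j with hY
  have m1 := map_family' T F Y (fun A => qi q (A + 1) * e (A + 1)) (fun i => (M - i, i))
    (fun i => q ^ i * qi q (a - i)) a hT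
  have m2 := map_family' T F Y (fun A => qi q (A + 1) * e (A + 1)) (fun i => (i, M - i))
    (fun i => q ^ a * qi q (a - i)) a hT
  dsimp only at m1 m2
  have cy := sum_divDiff_eq q Y hM
  simp only [hY, smul_sub, sum_sub_distrib, smul_smul] at cy
  rw [sum_shift
    (f := fun j => (q ^ j * (qi q (a - j) * qi q (a - j + 1)) * e j) • G (M + 1 - j))
    (by simp [qi_zero])] at cy
  simp only [pow_zero, one_mul, Nat.sub_zero, Nat.add_sub_add_right, he, mul_one] at cy
  have t2 : ∑ i ∈ range a, (q ^ i * qi q (a - i) * (qi q (M - i + 1) * e (M - i + 1))) • G i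
      = ∑ i ∈ range a, (q ^ i * qi q (a - i) * (qi q (M + 1 - i) * e (M + 1 - i))) • G i :=
    sum_congr rfl fun i hi => by
      rw [mem_range] at hi; rw [show M - i + 1 = M + 1 - i by omega]
  have eC : ∑ i ∈ range a, (q ^ a * qi q (a - i) * (qi q (i + 1) * e (i + 1))) • G (M - i)
      + ∑ i ∈ range a,
          (q ^ (i + 1) * (qi q (a - (i + 1)) * qi q (a - (i + 1) + 1)) * e (i + 1)) • G (M - i)
      = ∑ i ∈ range a, (qi q a * q ^ (i + 1) * qi q (a - i) * e (i + 1)) • G (M - i) := by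
    simp only [← sum_add_distrib, ← add_smul]
    refine sum_congr rfl fun i hi => ?_
    obtain ⟨r, rfl⟩ : ∃ r, a = r + (i + 1) := ⟨a - i - 1, by rw [mem_range] at hi; omega⟩
    congr 1
    rw [Nat.add_sub_cancel, show r + (i + 1) - i = r + 1 by omega, qi_add q r (i + 1)]
    ring
  have eD : ∑ j ∈ range a, (q ^ j * qi q (a - j) * (qi q (M + 1 - j) * e (M + 1 - j))) • G j
      - ∑ j ∈ range a, (q ^ j * (qi q (a - j) * qi q (a - j + 1)) * e (M + 1 - j)) • G j
      = ∑ j ∈ range a, (q ^ j * qi q (a - j) * (qi q (M + 1 - j) - qi q (a - j + 1))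
          * e (M + 1 - j)) • G j := by
    simp only [← sum_sub_distrib, ← sub_smul]
    exact sum_congr rfl fun j _ => by congr 1; ring
  rw [atom, map_add, m1, m2, sum_range_succ' _ a]
  simp only [pow_zero, pow_one, one_mul, mul_one, zero_add, Nat.sub_zero, Nat.add_sub_add_right,
    he] at *
  linear_combination (norm := module) t2 + eC + eD - cy

/-- `D` on `X(a+1,a,M)`. -/
theorem opD_atom_succ (T : V →ₗ[R] V') (he : e 0 = 1)
    (hT : ∀ A B, T (F A B) = (qi q (A + 1) * e (A + 1)) • G B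
      - divDiff (fun i j => e i • G j) A B)
    {a M : ℕ} (hM : 2 * a ≤ M) :
    T (atom q F (a + 1) a M)
      = ∑ j ∈ range (a + 1), (qi q (a + 1) * q ^ j * qi q (a + 1 - j) * e j) • G (M + 1 - j)
      + ∑ j ∈ range (a + 1), (q ^ j * qi q (a + 1 - j) * (qi q (M + 1 - j) - qi q (a + 1 - j))
          * e (M + 1 - j)) • G j := by
  set Y : ℕ → ℕ → V' := fun i j => e i • G j with hY
  have m1 := map_family' T F Y (fun A => qi q (A + 1) * e (A + 1)) (fun i => (M - i, i))
    (fun i => q ^ i * qi q (a + 1 - i)) (a + 1) hT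
  have m2 := map_family' T F Y (fun A => qi q (A + 1) * e (A + 1)) (fun i => (i, M - i))
    (fun i => q ^ (a + 1) * qi q (a - i)) a hT
  dsimp only at m1 m2
  have cy := sum_divDiff_succ q Y hM
  simp only [hY, smul_sub, sum_sub_distrib, smul_smul] at cy
  rw [sum_range_succ' (fun j => (q ^ j * (qi q (a + 1 - j) * qi q (a + 1 - j)) * e j)
    • G (M + 1 - j))] at cy
  simp only [pow_zero, one_mul, Nat.sub_zero, Nat.add_sub_add_right, he, mul_one] at cy
  have t2 : ∑ i ∈ range (a + 1),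
        (q ^ i * qi q (a + 1 - i) * (qi q (M - i + 1) * e (M - i + 1))) • G i
      = ∑ i ∈ range (a + 1),
        (q ^ i * qi q (a + 1 - i) * (qi q (M + 1 - i) * e (M + 1 - i))) • G i :=
    sum_congr rfl fun i hi => by
      rw [mem_range] at hi; rw [show M - i + 1 = M + 1 - i by omega]
  have eC : ∑ i ∈ range a, (q ^ (a + 1) * qi q (a - i) * (qi q (i + 1) * e (i + 1))) • G (M - i)
      + ∑ i ∈ range a, (q ^ (i + 1) * (qi q (a - i) * qi q (a - i)) * e (i + 1)) • G (M - i)
      = ∑ i ∈ range a, (qi q (a + 1) * q ^ (i + 1) * qi q (a - i) * e (i + 1)) • G (M - i) := by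
    simp only [← sum_add_distrib, ← add_smul]
    refine sum_congr rfl fun i hi => ?_
    obtain ⟨r, rfl⟩ : ∃ r, a = r + i := ⟨a - i, by rw [mem_range] at hi; omega⟩
    congr 1
    rw [Nat.add_sub_cancel, show qi q (r + i + 1) = qi q r + q ^ r * qi q (i + 1) by
      rw [add_assoc, qi_add]]
    ring
  have eD : ∑ j ∈ range (a + 1),
        (q ^ j * qi q (a + 1 - j) * (qi q (M + 1 - j) * e (M + 1 - j))) • G j
      - ∑ j ∈ range (a + 1),
          (q ^ j * (qi q (a + 1 - j) * qi q (a + 1 - j)) * e (M + 1 - j)) • G j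
      = ∑ j ∈ range (a + 1), (q ^ j * qi q (a + 1 - j) * (qi q (M + 1 - j) - qi q (a + 1 - j))
          * e (M + 1 - j)) • G j := by
    simp only [← sum_sub_distrib, ← sub_smul]
    exact sum_congr rfl fun j _ => by congr 1; ring
  rw [sum_range_succ' (fun j => (qi q (a + 1) * q ^ j * qi q (a + 1 - j) * e j) • G (M + 1 - j)),
    atom, map_add, m1, m2]
  simp only [pow_zero, pow_one, one_mul, mul_one, zero_add, Nat.sub_zero, Nat.add_sub_add_right,
    he] at *
  linear_combination (norm := module) t2 + eC + eD - cy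

end Vale.Agent.P066.Two
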