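import Vale.Agent.P066.Two.Atom

/-!
# The clique chain states
-/

open Finset

namespace Vale.Agent.P066.Two

variable {R : Type*} [CommRing R] (q : R) (e : ℕ → R)
variable {V V' : Type*} [AddCommGroup V] [Module R V] [AddCommGroup V'] [Module R V']

/-- The leading combination of the chain state. -/
def chainF (F : ℕ → ℕ → V) (M : ℕ) : V :=
  if M = 0 then F 0 0
  else if M % 2 = 1 then atom q F (M / 2 + 1) (M / 2 + 1) M - q • atom q F (M / 2) (M / 2) M
  else atom q F (M / 2 + 1) (M / 2) M - q • atom q F (M / 2) (M / 2 - 1) M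

/-- The chain state. -/
def chainK (F : ℕ → ℕ → V) : ℕ → V
  | M => chainF q F M
    - ∑ i : Fin M, (q ^ ((i : ℕ) + 1) * e ((i : ℕ) + 1)) • chainK F (M - ((i : ℕ) + 1))
  termination_by M => M
  decreasing_by have := i.isLt; omega

lemma chainK_eq (F : ℕ → ℕ → V) (M : ℕ) :
    chainK q e F M = chainF q F M
      - ∑ i ∈ range M, (q ^ (i + 1) * e (i + 1)) • chainK q e F (M - (i + 1)) := by
  rw [chainK, Fin.sum_univ_eq_sum_range
    (fun i => (q ^ (i + 1) * e (i + 1)) • chainK q e F (M - (i + 1))) M]

lemma qi_cg (m n : ℕ) :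
    qi q (m + 1) * qi q (n + 1) - q * (qi q m * qi q n) = qi q (m + n + 1) := by
  have h2 : qi q (m + n + 1) = qi q (m + 1) + q ^ (m + 1) * qi q n := by
    rw [← qi_add, show m + 1 + n = m + n + 1 by omega]
  linear_combination qi q (m + 1) * qi_succ' q n + q * qi q n * qi_succ q m - h2

lemma qi_sq (r : ℕ) :
    qi q (r + 1) * qi q (r + 1) - q * (qi q r * qi q r) = qi q (2 * r + 1) := by
  rw [qi_cg, show r + r + 1 = 2 * r + 1 by omega]

lemma qi_double (r : ℕ) :
    qi q (r + 1) * qi q (r + 2) - q * (qi q r * qi q (r + 1)) = qi q (2 * r + 2) := by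
  rw [qi_cg, show r + (r + 1) + 1 = 2 * r + 2 by omega]

lemma sum_split {M : Type*} [AddCommMonoid M] (f : ℕ → M) (n m : ℕ) :
    ∑ i ∈ range (n + m), f i = ∑ i ∈ range n, f i + ∑ k ∈ range m, f (n + m - 1 - k) := by
  rw [sum_range_add]
  congr 1
  rw [← sum_range_reflect (fun k => f (n + k)) m]
  exact sum_congr rfl fun k hk => by rw [mem_range] at hk; congr 1; omega

variable {q e} {F : ℕ → ℕ → V}

lemma atom_one_zero (F : ℕ → ℕ → V) (M : ℕ) : atom q F 1 0 M = F M 0 := by
  simp [atom, qi_one]

section P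

variable (T : V →ₗ[R] V) (he : e 0 = 1)
  (hT : ∀ A B, T (F A B) = F B (A + 1) + (q - 1) • divDiff (fun i j => F j i) A B
    + (q * qi q A * e (A + 1)) • F B 0 - q • divDiff (fun i j => e i • F j 0) A B)

include he hT

theorem opP_chainF (M : ℕ) :
    T (chainF q F M) = chainF q F (M + 1) - (q ^ (M + 1) * e (M + 1)) • F 0 0
      + q • ∑ i ∈ range (M + 1), (q ^ i * qi q (M - i) * e i) • F (M + 1 - i) 0 := by
  rcases Nat.eq_zero_or_pos M with rfl | hM
  · simp [chainF, hT, divDiff, atom, qi, he]
    module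
  obtain ⟨b, hb⟩ := Nat.even_or_odd' M
  rcases hb with rfl | rfl
  · obtain ⟨c, rfl⟩ : ∃ c, b = c + 1 := ⟨b - 1, by omega⟩
    have hF : chainF q F (2 * (c + 1)) = atom q F (c + 1 + 1) (c + 1) (2 * (c + 1))
        - q • atom q F (c + 1) c (2 * (c + 1)) := by
      simp [chainF]
    have hF' : chainF q F (2 * (c + 1) + 1)
        = atom q F (c + 1 + 1) (c + 1 + 1) (2 * (c + 1) + 1)
          - q • atom q F (c + 1) (c + 1) (2 * (c + 1) + 1) := by
      rw [chainF, if_neg (by omega), if_pos (by omega),
        show (2 * (c + 1) + 1) / 2 = c + 1 by omega]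
    rw [hF, hF', map_sub, map_smul, opP_atom_succ q T he hT (by omega),
      opP_atom_succ q T he hT (by omega),
      show 2 * (c + 1) + 1 = c + 1 + 1 + (c + 1) by omega, sum_split _ (c + 1 + 1) (c + 1)]
    set a := c + 1 with ha
    have s1 : ∑ j ∈ range (a + 1),
          (qi q a * q ^ (j + 1) * qi q (a + 1 - j) * e j) • F (2 * a + 1 - j) 0
        - q • ∑ j ∈ range (c + 1),
          (qi q c * q ^ (j + 1) * qi q (c + 1 - j) * e j) • F (2 * a + 1 - j) 0
        = q • ∑ j ∈ range (a + 1), (q ^ j * qi q (2 * a - j) * e j) • F (2 * a + 1 - j) 0 := by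
      simp only [smul_sum, smul_smul]
      rw [← ha, sum_range_succ _ a, sum_range_succ _ a, add_sub_right_comm, ← sum_sub_distrib]
      simp only [← sub_smul]
      congr 1
      · refine sum_congr rfl fun j hj => ?_
        obtain ⟨r, rfl⟩ : ∃ r, c = j + r := ⟨c - j, by rw [mem_range] at hj; omega⟩
        congr 1
        have h := qi_cg q (j + r) (r + 1)
        rw [ha, show 2 * (j + r + 1) - j = j + r + (r + 1) + 1 by omega,
          show j + r + 1 + 1 - j = r + 1 + 1 by omega, show j + r + 1 - j = r + 1 by omega]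
        linear_combination q ^ (j + 1) * e j * h
      · congr 1
        rw [show a + 1 - a = 1 by omega, show 2 * a - a = a by omega, qi_one]
        ring
    have s2 : ∑ j ∈ range (a + 1), (q ^ (j + 1) * qi q (a + 1 - j)
            * (qi q (2 * a - j) - qi q (a + 1 - j)) * e (2 * a + 1 - j)) • F j 0
        - q • ∑ j ∈ range (c + 1), (q ^ (j + 1) * qi q (c + 1 - j)
            * (qi q (2 * a - j) - qi q (c + 1 - j)) * e (2 * a + 1 - j)) • F j 0
        = q • ∑ k ∈ range a, (q ^ (2 * a - k) * qi q (2 * a - (2 * a - k)) * e (2 * a - k))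
              • F (2 * a + 1 - (2 * a - k)) 0
          - (q ^ (2 * a + 1) * e (2 * a + 1)) • F 0 0 := by
      have hsum : ∑ j ∈ range (c + 1), (q ^ (j + 1) * qi q (c + 1 - j)
            * (qi q (2 * a - j) - qi q (c + 1 - j)) * e (2 * a + 1 - j)) • F j 0
          = ∑ j ∈ range (a + 1), (q ^ (j + 1) * qi q (a - j)
            * (qi q (2 * a - j) - qi q (a - j)) * e (2 * a + 1 - j)) • F j 0 := by
        rw [← ha, sum_range_succ _ a, Nat.sub_self, qi_zero]
        simp
      rw [hsum]
      simp only [smul_sum, smul_smul, ← sum_sub_distrib, ← sub_smul]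
      rw [sum_range_succ' _ a, sub_eq_add_neg _ ((q ^ (2 * a + 1) * e (2 * a + 1)) • F 0 0),
        ← neg_smul]
      congr 1
      · refine sum_congr rfl fun k hk => ?_
        obtain ⟨r, hr⟩ : ∃ r, a = k + 1 + r := ⟨a - k - 1, by rw [mem_range] at hk; omega⟩
        rw [show 2 * a + 1 - (2 * a - k) = k + 1 by omega, show 2 * a + 1 - (k + 1) = 2 * a - k by omega,
          show 2 * a - (2 * a - k) = k by omega, show a + 1 - (k + 1) = r + 1 by omega,
          show a - (k + 1) = r by omega, show 2 * a - (k + 1) = 2 * r + 1 + k by omega,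
          show q ^ (2 * a - k) = q ^ (2 * r + 1) * q ^ (k + 1) by
            rw [← pow_add]; congr 1; omega]
        congr 1
        have hN : qi q (2 * r + 1 + k) = qi q (2 * r + 1) + q ^ (2 * r + 1) * qi q k := qi_add q _ k
        linear_combination q ^ (k + 1 + 1) * e (2 * a - k) * qi q (2 * r + 1 + k) * qi_succ' q r
          - q ^ (k + 1 + 1) * e (2 * a - k) * qi_sq q r + q ^ (k + 1 + 1) * e (2 * a - k) * hN
      · congr 1
        simp only [Nat.sub_zero, zero_add, pow_one]
        have hN : qi q (2 * a + 1) = qi q (2 * a) + q ^ (2 * a) := qi_succ q _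
        linear_combination q * e (2 * a + 1) * qi q (2 * a) * qi_succ' q a
          - q * e (2 * a + 1) * qi_sq q a - q * e (2 * a + 1) * hN
    simp only [show a + 1 + a = 2 * a + 1 by omega, show 2 * a + 1 - 1 = 2 * a by omega,
      show c + 1 = a from ha.symm] at *
    linear_combination (norm := module) s1 + s2
  · rcases Nat.eq_zero_or_pos b with rfl | hb0
    · have hF : chainF q F (2 * 0 + 1) = atom q F 1 1 1 - q • atom q F 0 0 1 := by simp [chainF]
      have hF' : chainF q F (2 * 0 + 1 + 1) = atom q F 2 1 2 - q • atom q F 1 0 2 := by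
        simp [chainF]
      rw [hF, hF', map_sub, map_smul, opP_atom_eq q T he hT le_rfl (by norm_num)]
      simp [atom, qi, sum_range_succ, he]
      module
    obtain ⟨c, rfl⟩ : ∃ c, b = c + 1 := ⟨b - 1, by omega⟩
    have hF : chainF q F (2 * (c + 1) + 1)
        = atom q F (c + 1 + 1) (c + 1 + 1) (2 * (c + 1) + 1)
          - q • atom q F (c + 1) (c + 1) (2 * (c + 1) + 1) := by
      rw [chainF, if_neg (by omega), if_pos (by omega),
        show (2 * (c + 1) + 1) / 2 = c + 1 by omega]
    have hF' : chainF q F (2 * (c + 1) + 1 + 1)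
        = atom q F (c + 1 + 1 + 1) (c + 1 + 1) (2 * (c + 1) + 1 + 1)
          - q • atom q F (c + 1 + 1) (c + 1) (2 * (c + 1) + 1 + 1) := by
      rw [chainF, if_neg (by omega), if_neg (by omega),
        show (2 * (c + 1) + 1 + 1) / 2 = c + 1 + 1 by omega, Nat.add_sub_cancel]
    rw [hF, hF', map_sub, map_smul, opP_atom_eq q T he hT (by omega) (by omega),
      opP_atom_eq q T he hT (by omega) (by omega),
      show range (2 * (c + 1) + 1 + 1) = range (c + 1 + 1 + 1 + (c + 1)) by congr 1; omega,
      sum_split _ (c + 1 + 1 + 1) (c + 1)]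
    set b := c + 1 with hb
    have s1 : ∑ j ∈ range (b + 1 + 1),
          (qi q (b + 1 - 1) * q ^ (j + 1) * qi q (b + 1 + 1 - j) * e j) • F (2 * b + 1 + 1 - j) 0
        - q • ∑ j ∈ range (b + 1),
          (qi q (b - 1) * q ^ (j + 1) * qi q (b + 1 - j) * e j) • F (2 * b + 1 + 1 - j) 0
        = q • ∑ j ∈ range (b + 1 + 1),
            (q ^ j * qi q (2 * b + 1 - j) * e j) • F (2 * b + 1 + 1 - j) 0 := by
      simp only [smul_sum, smul_smul, Nat.add_sub_cancel]
      rw [sum_range_succ _ (b + 1), sum_range_succ _ (b + 1), add_sub_right_comm, ← sum_sub_distrib]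
      simp only [← sub_smul]
      congr 1
      · refine sum_congr rfl fun j hj => ?_
        obtain ⟨r, hr⟩ : ∃ r, b = j + r := ⟨b - j, by rw [mem_range] at hj; omega⟩
        congr 1
        have h := qi_cg q c (r + 1)
        rw [show 2 * b + 1 - j = c + (r + 1) + 1 by omega, show b - 1 = c by omega,
          show b + 1 + 1 - j = r + 1 + 1 by omega, show b + 1 - j = r + 1 by omega]
        rw [← hb] at h
        linear_combination q ^ (j + 1) * e j * h
      · congr 1
        rw [show b + 1 + 1 - (b + 1) = 1 by omega, show 2 * b + 1 - (b + 1) = b by omega, qi_one]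
        ring
    have s2 : ∑ j ∈ range (b + 1), (q ^ (j + 1) * qi q (b + 1 - j)
            * (qi q (2 * b + 1 - j) - qi q (b + 1 - j + 1)) * e (2 * b + 1 + 1 - j)) • F j 0
        - q • ∑ j ∈ range b, (q ^ (j + 1) * qi q (b - j)
            * (qi q (2 * b + 1 - j) - qi q (b - j + 1)) * e (2 * b + 1 + 1 - j)) • F j 0
        = q • ∑ k ∈ range b, (q ^ (2 * b + 1 - k) * qi q (2 * b + 1 - (2 * b + 1 - k))
              * e (2 * b + 1 - k)) • F (2 * b + 1 + 1 - (2 * b + 1 - k)) 0
          - (q ^ (2 * b + 1 + 1) * e (2 * b + 1 + 1)) • F 0 0 := by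
      have hsum : ∑ j ∈ range b, (q ^ (j + 1) * qi q (b - j)
            * (qi q (2 * b + 1 - j) - qi q (b - j + 1)) * e (2 * b + 1 + 1 - j)) • F j 0
          = ∑ j ∈ range (b + 1), (q ^ (j + 1) * qi q (b - j)
            * (qi q (2 * b + 1 - j) - qi q (b - j + 1)) * e (2 * b + 1 + 1 - j)) • F j 0 := by
        rw [sum_range_succ _ b, Nat.sub_self, qi_zero]
        simp
      rw [hsum]
      simp only [smul_sum, smul_smul, ← sum_sub_distrib, ← sub_smul]
      rw [sum_range_succ' _ b,
        sub_eq_add_neg _ ((q ^ (2 * b + 1 + 1) * e (2 * b + 1 + 1)) • F 0 0), ← neg_smul]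
      congr 1
      · refine sum_congr rfl fun k hk => ?_
        obtain ⟨r, hr⟩ : ∃ r, b = k + 1 + r := ⟨b - k - 1, by rw [mem_range] at hk; omega⟩
        rw [show 2 * b + 1 + 1 - (2 * b + 1 - k) = k + 1 by omega,
          show 2 * b + 1 + 1 - (k + 1) = 2 * b + 1 - k by omega,
          show 2 * b + 1 - (2 * b + 1 - k) = k by omega, show b + 1 - (k + 1) = r + 1 by omega,
          show b - (k + 1) = r by omega, show 2 * b + 1 - (k + 1) = 2 * r + 2 + k by omega,
          show q ^ (2 * b + 1 - k) = q ^ (2 * r + 2) * q ^ (k + 1) by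
            rw [← pow_add]; congr 1; omega]
        congr 1
        have hN : qi q (2 * r + 2 + k) = qi q (2 * r + 2) + q ^ (2 * r + 2) * qi q k := qi_add q _ k
        linear_combination q ^ (k + 1 + 1) * e (2 * b + 1 - k) * qi q (2 * r + 2 + k) * qi_succ' q r
          - q ^ (k + 1 + 1) * e (2 * b + 1 - k) * qi_double q r
          + q ^ (k + 1 + 1) * e (2 * b + 1 - k) * hN
      · congr 1
        simp only [Nat.sub_zero, zero_add, pow_one]
        have hN : qi q (2 * b + 2) = qi q (2 * b + 1) + q ^ (2 * b + 1) := qi_succ q _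
        linear_combination q * e (2 * b + 1 + 1) * qi q (2 * b + 1) * qi_succ' q b
          - q * e (2 * b + 1 + 1) * qi_double q b - q * e (2 * b + 1 + 1) * hN
    simp only [show b + 1 + 1 + b = 2 * b + 1 + 1 by omega,
      show 2 * b + 1 + 1 - 1 = 2 * b + 1 by omega] at *
    linear_combination (norm := module) s1 + s2

theorem opP_chainK (M : ℕ) :
    T (chainK q e F M) = chainK q e F (M + 1) + (q * qi q M) • F (M + 1) 0 := by
  induction M using Nat.strong_induction_on with
  | _ M ih =>
    have h : T (∑ i ∈ range M, (q ^ (i + 1) * e (i + 1)) • chainK q e F (M - (i + 1)))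
        = ∑ i ∈ range M, (q ^ (i + 1) * e (i + 1)) • chainK q e F (M + 1 - (i + 1))
          + q • ∑ i ∈ range M, (q ^ (i + 1) * qi q (M - (i + 1)) * e (i + 1)) • F (M - i) 0 := by
      simp only [map_sum, map_smul, smul_sum, smul_smul, ← sum_add_distrib]
      refine sum_congr rfl fun i hi => ?_
      rw [mem_range] at hi
      rw [ih _ (by omega), show M - (i + 1) + 1 = M - i by omega,
        show M + 1 - (i + 1) = M - i by omega]
      module
    have h0 : chainK q e F 0 = F 0 0 := by rw [chainK_eq]; simp [chainF]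
    rw [chainK_eq q e F M, map_sub, h, opP_chainF T he hT, chainK_eq q e F (M + 1),
      sum_range_succ (fun i => (q ^ (i + 1) * e (i + 1)) • chainK q e F (M + 1 - (i + 1))) M,
      Nat.sub_self, h0, sum_range_succ' (fun i => (q ^ i * qi q (M - i) * e i) • F (M + 1 - i) 0) M]
    simp only [pow_zero, one_mul, Nat.sub_zero, Nat.add_sub_add_right, he, mul_one]
    module

end P

section D

variable {G : ℕ → V'} (T : V →ₗ[R] V') (he : e 0 = 1)
  (hT : ∀ A B, T (F A B) = (qi q (A + 1) * e (A + 1)) • G B
    - divDiff (fun i j => e i • G j) A B)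

include he hT

theorem opD_chainF (M : ℕ) :
    T (chainF q F M) = ∑ i ∈ range (M + 1), (q ^ i * qi q (M + 1 - i) * e i) • G (M + 1 - i) := by
  rcases Nat.eq_zero_or_pos M with rfl | hM
  · simp [chainF, hT, divDiff, qi, he]
  obtain ⟨b, hb⟩ := Nat.even_or_odd' M
  rcases hb with rfl | rfl
  · obtain ⟨c, rfl⟩ : ∃ c, b = c + 1 := ⟨b - 1, by omega⟩
    have hF : chainF q F (2 * (c + 1)) = atom q F (c + 1 + 1) (c + 1) (2 * (c + 1))
        - q • atom q F (c + 1) c (2 * (c + 1)) := by
      simp [chainF]
    rw [hF, map_sub, map_smul, opD_atom_succ q T he hT (by omega),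
      opD_atom_succ q T he hT (by omega),
      show range (2 * (c + 1) + 1) = range (c + 1 + 1 + (c + 1)) by congr 1; omega,
      sum_split _ (c + 1 + 1) (c + 1)]
    set a := c + 1 with ha
    have s1 : ∑ j ∈ range (a + 1),
          (qi q (a + 1) * q ^ j * qi q (a + 1 - j) * e j) • G (2 * a + 1 - j)
        - q • ∑ j ∈ range (c + 1),
          (qi q (c + 1) * q ^ j * qi q (c + 1 - j) * e j) • G (2 * a + 1 - j)
        = ∑ j ∈ range (a + 1), (q ^ j * qi q (2 * a + 1 - j) * e j) • G (2 * a + 1 - j) := by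
      simp only [smul_sum, smul_smul]
      rw [← ha, sum_range_succ _ a, sum_range_succ _ a, add_sub_right_comm, ← sum_sub_distrib]
      simp only [← sub_smul]
      congr 1
      · refine sum_congr rfl fun j hj => ?_
        obtain ⟨r, hr⟩ : ∃ r, a = j + r := ⟨a - j, by rw [mem_range] at hj; omega⟩
        congr 1
        have h := qi_cg q a r
        rw [show 2 * a + 1 - j = a + r + 1 by omega, show a + 1 - j = r + 1 by omega,
          show a - j = r by omega]
        linear_combination q ^ j * e j * h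
      · congr 1
        rw [show a + 1 - a = 1 by omega, show 2 * a + 1 - a = a + 1 by omega, qi_one]
        ring
    have s2 : ∑ j ∈ range (a + 1), (q ^ j * qi q (a + 1 - j)
            * (qi q (2 * a + 1 - j) - qi q (a + 1 - j)) * e (2 * a + 1 - j)) • G j
        - q • ∑ j ∈ range (c + 1), (q ^ j * qi q (c + 1 - j)
            * (qi q (2 * a + 1 - j) - qi q (c + 1 - j)) * e (2 * a + 1 - j)) • G j
        = ∑ k ∈ range a, (q ^ (2 * a - k) * qi q (2 * a + 1 - (2 * a - k)) * e (2 * a - k))
              • G (2 * a + 1 - (2 * a - k)) := by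
      have hsum : ∑ j ∈ range (c + 1), (q ^ j * qi q (c + 1 - j)
            * (qi q (2 * a + 1 - j) - qi q (c + 1 - j)) * e (2 * a + 1 - j)) • G j
          = ∑ j ∈ range (a + 1), (q ^ j * qi q (a - j)
            * (qi q (2 * a + 1 - j) - qi q (a - j)) * e (2 * a + 1 - j)) • G j := by
        rw [← ha, sum_range_succ _ a, Nat.sub_self, qi_zero]
        simp
      rw [hsum]
      simp only [smul_sum, smul_smul, ← sum_sub_distrib, ← sub_smul]
      rw [sum_range_succ' _ a]
      refine (add_eq_left.2 ?_).trans (sum_congr rfl fun k hk => ?_)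
      · simp only [Nat.sub_zero, pow_zero, one_mul]
        have : qi q (a + 1) * (qi q (2 * a + 1) - qi q (a + 1))
            - q * (qi q a * (qi q (2 * a + 1) - qi q a)) = 0 := by
          linear_combination qi q (2 * a + 1) * qi_succ' q a - qi_sq q a
        rw [show qi q (a + 1) * (qi q (2 * a + 1) - qi q (a + 1)) * e (2 * a + 1)
            - q * (qi q a * (qi q (2 * a + 1) - qi q a) * e (2 * a + 1))
          = 0 by linear_combination e (2 * a + 1) * this, zero_smul]
      · obtain ⟨r, hr⟩ : ∃ r, a = k + 1 + r := ⟨a - k - 1, by rw [mem_range] at hk; omega⟩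
        rw [show 2 * a + 1 - (2 * a - k) = k + 1 by omega,
          show 2 * a + 1 - (k + 1) = 2 * a - k by omega,
          show a + 1 - (k + 1) = r + 1 by omega, show a - (k + 1) = r by omega,
          show 2 * a - k = 2 * r + 1 + (k + 1) by omega]
        congr 1
        have hN : qi q (2 * r + 1 + (k + 1))
            = qi q (2 * r + 1) + q ^ (2 * r + 1) * qi q (k + 1) := qi_add q _ (k + 1)
        linear_combination q ^ (k + 1) * e (2 * r + 1 + (k + 1)) * qi q (2 * r + 1 + (k + 1)) * qi_succ' q r
          - q ^ (k + 1) * e (2 * r + 1 + (k + 1)) * qi_sq q r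
          + q ^ (k + 1) * e (2 * r + 1 + (k + 1)) * hN
    simp only [show a + 1 + a = 2 * a + 1 by omega, show 2 * a + 1 - 1 = 2 * a by omega,
      show c + 1 = a from ha.symm] at *
    linear_combination (norm := module) s1 + s2
  · have hF : chainF q F (2 * b + 1)
        = atom q F (b + 1) (b + 1) (2 * b + 1) - q • atom q F b b (2 * b + 1) := by
      rw [chainF, if_neg (by omega), if_pos (by omega), show (2 * b + 1) / 2 = b by omega]
    rw [hF, map_sub, map_smul, opD_atom_eq q T he hT (by omega),
      opD_atom_eq q T he hT (by omega),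
      show range (2 * b + 1 + 1) = range (b + 1 + 1 + b) by congr 1; omega,
      sum_split _ (b + 1 + 1) b]
    have s1 : ∑ j ∈ range (b + 1 + 1),
          (qi q (b + 1) * q ^ j * qi q (b + 1 + 1 - j) * e j) • G (2 * b + 1 + 1 - j)
        - q • ∑ j ∈ range (b + 1),
          (qi q b * q ^ j * qi q (b + 1 - j) * e j) • G (2 * b + 1 + 1 - j)
        = ∑ j ∈ range (b + 1 + 1),
            (q ^ j * qi q (2 * b + 1 + 1 - j) * e j) • G (2 * b + 1 + 1 - j) := by
      simp only [smul_sum, smul_smul]
      rw [sum_range_succ _ (b + 1), sum_range_succ _ (b + 1), add_sub_right_comm, ← sum_sub_distrib]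
      simp only [← sub_smul]
      congr 1
      · refine sum_congr rfl fun j hj => ?_
        obtain ⟨r, hr⟩ : ∃ r, b = j + r := ⟨b - j, by rw [mem_range] at hj; omega⟩
        congr 1
        have h := qi_cg q b (r + 1)
        rw [show 2 * b + 1 + 1 - j = b + (r + 1) + 1 by omega,
          show b + 1 + 1 - j = r + 1 + 1 by omega, show b + 1 - j = r + 1 by omega]
        linear_combination q ^ j * e j * h
      · congr 1
        rw [show b + 1 + 1 - (b + 1) = 1 by omega,
          show 2 * b + 1 + 1 - (b + 1) = b + 1 by omega, qi_one]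
        ring
    have s2 : ∑ j ∈ range (b + 1), (q ^ j * qi q (b + 1 - j)
            * (qi q (2 * b + 1 + 1 - j) - qi q (b + 1 - j + 1)) * e (2 * b + 1 + 1 - j)) • G j
        - q • ∑ j ∈ range b, (q ^ j * qi q (b - j)
            * (qi q (2 * b + 1 + 1 - j) - qi q (b - j + 1)) * e (2 * b + 1 + 1 - j)) • G j
        = ∑ k ∈ range b, (q ^ (2 * b + 1 - k) * qi q (2 * b + 1 + 1 - (2 * b + 1 - k))
              * e (2 * b + 1 - k)) • G (2 * b + 1 + 1 - (2 * b + 1 - k)) := by
      have hsum : ∑ j ∈ range b, (q ^ j * qi q (b - j)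
            * (qi q (2 * b + 1 + 1 - j) - qi q (b - j + 1)) * e (2 * b + 1 + 1 - j)) • G j
          = ∑ j ∈ range (b + 1), (q ^ j * qi q (b - j)
            * (qi q (2 * b + 1 + 1 - j) - qi q (b - j + 1)) * e (2 * b + 1 + 1 - j)) • G j := by
        rw [sum_range_succ _ b, Nat.sub_self, qi_zero]
        simp
      rw [hsum]
      simp only [smul_sum, smul_smul, ← sum_sub_distrib, ← sub_smul]
      rw [sum_range_succ' _ b]
      refine (add_eq_left.2 ?_).trans (sum_congr rfl fun k hk => ?_)
      · simp only [Nat.sub_zero, pow_zero, one_mul]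
        have : qi q (b + 1) * (qi q (2 * b + 2) - qi q (b + 2))
            - q * (qi q b * (qi q (2 * b + 2) - qi q (b + 1))) = 0 := by
          linear_combination qi q (2 * b + 2) * qi_succ' q b - qi_double q b
        rw [show qi q (b + 1) * (qi q (2 * b + 1 + 1) - qi q (b + 1 + 1)) * e (2 * b + 1 + 1)
            - q * (qi q b * (qi q (2 * b + 1 + 1) - qi q (b + 1)) * e (2 * b + 1 + 1))
          = 0 by linear_combination e (2 * b + 1 + 1) * this, zero_smul]
      · obtain ⟨r, hr⟩ : ∃ r, b = k + 1 + r := ⟨b - k - 1, by rw [mem_range] at hk; omega⟩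
        rw [show 2 * b + 1 + 1 - (2 * b + 1 - k) = k + 1 by omega,
          show 2 * b + 1 + 1 - (k + 1) = 2 * b + 1 - k by omega,
          show b + 1 - (k + 1) = r + 1 by omega, show b - (k + 1) = r by omega,
          show 2 * b + 1 - k = 2 * r + 2 + (k + 1) by omega]
        congr 1
        have hN : qi q (2 * r + 2 + (k + 1))
            = qi q (2 * r + 2) + q ^ (2 * r + 2) * qi q (k + 1) := qi_add q _ (k + 1)
        linear_combination q ^ (k + 1) * e (2 * r + 2 + (k + 1)) * qi q (2 * r + 2 + (k + 1)) * qi_succ' q r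
          - q ^ (k + 1) * e (2 * r + 2 + (k + 1)) * qi_double q r
          + q ^ (k + 1) * e (2 * r + 2 + (k + 1)) * hN
    simp only [show b + 1 + 1 + b = 2 * b + 1 + 1 by omega,
      show 2 * b + 1 + 1 - 1 = 2 * b + 1 by omega] at *
    linear_combination (norm := module) s1 + s2

theorem opD_chainK (M : ℕ) : T (chainK q e F M) = qi q (M + 1) • G (M + 1) := by
  induction M using Nat.strong_induction_on with
  | _ M ih =>
    have h : T (∑ i ∈ range M, (q ^ (i + 1) * e (i + 1)) • chainK q e F (M - (i + 1)))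
        = ∑ i ∈ range M, (q ^ (i + 1) * qi q (M - i) * e (i + 1)) • G (M - i) := by
      simp only [map_sum, map_smul]
      refine sum_congr rfl fun i hi => ?_
      rw [mem_range] at hi
      rw [ih _ (by omega), smul_smul, show M - (i + 1) + 1 = M - i by omega]
      congr 1; ring
    rw [chainK_eq q e F M, map_sub, h, opD_chainF T he hT, sum_range_succ' _ M]
    simp only [pow_zero, one_mul, Nat.sub_zero, Nat.add_sub_add_right, he, mul_one]
    abel

end D

end Vale.Agent.P066.Two
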