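import Vale.Agent.P066.Two.DivDiff

/-!
# States of one or two marked vertices in the colour model
The variables `x` are indexed by ordered colours. `gc d A` is the coefficient of `u^A` in
`∏_{z<d} (1+q x_z u) ∏_{z>d} (1+x_z u)`.
In `Phi A B c d` the colour `c` belongs to the older mark and `d` to the newer one.
-/

open Finset Polynomial

namespace Vale.Agent.P066.Two

variable {R : Type*} [CommRing R] {N : ℕ}

lemma coeff_prod_one_add {ι : Type*} (s : Finset ι) (a : ι → R) (k : ℕ) :
    (∏ i ∈ s, (1 + C (a i) * Polynomial.X)).coeff k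
      = ∑ t ∈ s.powersetCard k, ∏ i ∈ t, a i := by
  classical
  rw [Finset.prod_one_add, finsetSum_coeff, powersetCard_eq_filter, sum_filter]
  refine sum_congr rfl fun t _ => ?_
  rw [prod_mul_distrib, prod_const, ← map_prod, coeff_C_mul, coeff_X_pow]
  simp [eq_comm]

variable (q : R) (x : Fin N → R)

/-- The product with the colour `d` left out. -/
noncomputable def gen (d : Fin N) : R[X] :=
  ∏ z ∈ univ.erase d, (1 + C (if z < d then q * x z else x z) * Polynomial.X)

/-- The product with the first `t` colours scaled by `q`. -/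
noncomputable def cum (t : ℕ) : R[X] :=
  ∏ z : Fin N, (1 + C (if (z : ℕ) < t then q * x z else x z) * Polynomial.X)

/-- `g_A(d)`. -/
noncomputable def gc (A : ℕ) (d : Fin N) : R := (gen q x d).coeff A

/-- The elementary symmetric function. -/
noncomputable def ec (A : ℕ) : R := ∑ t ∈ (univ : Finset (Fin N)).powersetCard A, ∏ i ∈ t, x i

/-- `1 + q + ⋯ + q^(m-1)`. -/
def qi (m : ℕ) : R := ∑ i ∈ range m, q ^ i

/-- The weight of an edge from an older to a newer vertex. -/
def pr (c d : Fin N) : R := if c < d then q else if d < c then 1 else 0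

lemma qi_zero : qi q 0 = 0 := rfl

lemma qi_succ (m : ℕ) : qi q (m + 1) = qi q m + q ^ m := sum_range_succ _ _

lemma qi_mul (m : ℕ) : qi q m * (q - 1) = q ^ m - 1 := geom_sum_mul q m

lemma gc_zero (d : Fin N) : gc q x 0 d = 1 := by simp [gc, gen, coeff_prod_one_add]

lemma ec_zero : ec x 0 = 1 := by simp [ec]

lemma cum_eq_of_eq (d : Fin N) :
    cum q x d = (1 + C (x d) * Polynomial.X) * gen q x d := by
  rw [cum, ← mul_prod_erase univ _ (mem_univ d), if_neg (lt_irrefl _), gen]
  congr 1

lemma cum_eq_succ (d : Fin N) :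
    cum q x ((d : ℕ) + 1) = (1 + C (q * x d) * Polynomial.X) * gen q x d := by
  rw [cum, ← mul_prod_erase univ _ (mem_univ d), if_pos (Nat.lt_succ_self _), gen]
  congr 1
  refine prod_congr rfl fun z hz => ?_
  have hne : (z : ℕ) ≠ d := Fin.val_ne_of_ne (ne_of_mem_erase hz)
  have hiff : (z : ℕ) < (d : ℕ) + 1 ↔ z < d := by
    rw [Fin.lt_def]; omega
  simp only [hiff]

/-- The coefficient of `u^(i+1)` in `cum`. -/
noncomputable def pc (t i : ℕ) : R := (cum q x t).coeff (i + 1)

lemma pc_eq (d : Fin N) (i : ℕ) :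
    pc q x d i = gc q x (i + 1) d + x d * gc q x i d := by
  rw [pc, cum_eq_of_eq, add_mul, one_mul, mul_assoc, coeff_add, coeff_C_mul, coeff_X_mul]
  rfl

lemma pc_succ (d : Fin N) (i : ℕ) :
    pc q x ((d : ℕ) + 1) i = gc q x (i + 1) d + q * x d * gc q x i d := by
  rw [pc, cum_eq_succ, add_mul, one_mul, mul_assoc, coeff_add, coeff_C_mul, coeff_X_mul]
  rfl

lemma pc_zero (i : ℕ) : pc q x 0 i = ec x (i + 1) := by
  simp [pc, cum, coeff_prod_one_add, ec]

lemma pc_top (i : ℕ) : pc q x N i = q ^ (i + 1) * ec x (i + 1) := by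
  rw [pc, cum, coeff_prod_one_add, ec, mul_sum]
  refine sum_congr rfl fun t ht => ?_
  simp [Finset.prod_mul_distrib, (mem_powersetCard.1 ht).2]

lemma sum_interval (p : ℕ → R) {lo hi : ℕ} (h : lo ≤ hi) (hN : hi ≤ N) :
    ∑ c : Fin N, (if lo ≤ (c : ℕ) ∧ (c : ℕ) < hi then p (c + 1) - p c else 0) = p hi - p lo := by
  induction hi, h using Nat.le_induction with
  | base => simp [show ∀ c : ℕ, ¬(lo ≤ c ∧ c < lo) by omega]
  | succ hi hlo ih =>
    have hsplit : ∀ c : Fin N,
        (if lo ≤ (c : ℕ) ∧ (c : ℕ) < hi + 1 then p (c + 1) - p c else 0)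
          = (if lo ≤ (c : ℕ) ∧ (c : ℕ) < hi then p (c + 1) - p c else 0)
            + (if c = ⟨hi, by omega⟩ then p (c + 1) - p c else 0) := fun c => by
      by_cases hc : c = ⟨hi, by omega⟩
      · subst hc; simp [hlo]
      · have : (c : ℕ) ≠ hi := fun e => hc (Fin.ext e)
        have hiff : ((c : ℕ) < hi + 1) ↔ (c : ℕ) < hi := by omega
        simp [hc, hiff]
    simp only [hsplit]
    rw [sum_add_distrib, ih (by omega), sum_ite_eq']
    simp

/-- The weighted sum of `g_i` over an interval of colours. -/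
noncomputable def isum (i lo hi : ℕ) : R :=
  ∑ c : Fin N, if lo ≤ (c : ℕ) ∧ (c : ℕ) < hi then x c * gc q x i c else 0

lemma qsub_mul_isum (i : ℕ) {lo hi : ℕ} (h : lo ≤ hi) (hN : hi ≤ N) :
    (q - 1) * isum q x i lo hi = pc q x hi i - pc q x lo i := by
  rw [← sum_interval (fun t => pc q x t i) h hN, isum, mul_sum]
  refine sum_congr rfl fun c _ => ?_
  rw [pc_succ, pc_eq]
  split_ifs <;> ring

/-- The two-mark states. -/
noncomputable def Phi (A B : ℕ) (c d : Fin N) : R :=
  if d < c then gc q x A c * gc q x B d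
  else if c < d then q * (gc q x A c * gc q x B d)
      + (q - 1) * vDiff (fun i j => gc q x i c * gc q x j d) A B
  else 0

/-- Add a vertex next to the single mark. -/
def opU : (Fin N → R) →ₗ[R] (Fin N → Fin N → R) where
  toFun s c d := pr q c d * s c
  map_add' s t := by ext c d; simp [mul_add]
  map_smul' a s := by ext c d; simp [mul_left_comm]

/-- Forget the older mark. -/
def opD : (Fin N → Fin N → R) →ₗ[R] (Fin N → R) where
  toFun S d := ∑ c, x c * S c d
  map_add' S T := by ext d; simp [mul_add, sum_add_distrib]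
  map_smul' a S := by ext d; simp [mul_sum, mul_left_comm]

/-- Add a vertex next to both marks and forget the oldest. -/
def opP : (Fin N → Fin N → R) →ₗ[R] (Fin N → Fin N → R) where
  toFun S d e := ∑ c, x c * (pr q c e * pr q d e) * S c d
  map_add' S T := by ext d e; simp [mul_add, sum_add_distrib]
  map_smul' a S := by ext d e; simp [mul_sum, mul_left_comm]

/-- Forget the only mark. -/
def opC : (Fin N → R) →ₗ[R] R where
  toFun s := ∑ d, x d * s d
  map_add' s t := by simp [mul_add, sum_add_distrib]
  map_smul' a s := by simp [mul_sum, mul_left_comm]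

lemma Phi_zero_right (A : ℕ) : Phi q x A 0 = opU q (gc q x A) := by
  funext c d
  show _ = pr q c d * _
  rcases lt_trichotomy c d with h | h | h
  · simp [Phi, pr, h, h.not_gt, vDiff_zero, gc_zero]
  · simp [Phi, pr, h]
  · simp [Phi, pr, h, h.not_gt, gc_zero]

lemma opC_gc [IsDomain R] (hq : q ≠ 1) (A : ℕ) :
    opC x (gc q x A) = qi q (A + 1) * ec x (A + 1) := by
  refine mul_left_cancel₀ (sub_ne_zero.2 hq) ?_
  have h := qsub_mul_isum q x A (Nat.zero_le N) le_rfl
  have hs : opC x (gc q x A) = isum q x A 0 N := by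
    simp [opC, isum]
  rw [hs, h, pc_top, pc_zero, ← mul_assoc, mul_comm (q - 1), qi_mul]
  ring

lemma vDiff_sum {M ι : Type*} [AddCommGroup M] (s : Finset ι) (F : ι → ℕ → ℕ → M) (A B : ℕ) :
    ∑ c ∈ s, vDiff (F c) A B = vDiff (fun i j => ∑ c ∈ s, F c i j) A B := by
  classical
  induction s using Finset.induction with
  | empty => simp [vDiff_eq_zero]
  | insert c s hc ih => simp only [sum_insert hc, ih, vDiff_add]

lemma sum_ite_vDiff (p : Fin N → Prop) [DecidablePred p] (b : ℕ → R) (A B : ℕ) :
    ∑ c : Fin N, (if p c then x c * vDiff (fun i j => gc q x i c * b j) A B else 0)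
      = vDiff (fun i j => (∑ c : Fin N, if p c then x c * gc q x i c else 0) * b j) A B := by
  simp only [sum_mul]
  rw [← vDiff_sum]
  refine sum_congr rfl fun c _ => ?_
  split_ifs with hp
  · rw [← smul_eq_mul, ← vDiff_smul]
    congr 1
    funext i j
    rw [smul_eq_mul]; ring
  · simp [vDiff_eq_zero]

theorem opD_Phi [IsDomain R] (hq : q ≠ 1) (A B : ℕ) (d : Fin N) :
    opD x (Phi q x A B) d = qi q (A + 1) * ec x (A + 1) * gc q x B d
      - divDiff (fun i j => ec x i * gc q x j d) A B := by
  refine mul_left_cancel₀ (sub_ne_zero.2 hq) ?_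
  set b := fun j => gc q x j d with hb
  have hsplit : opD x (Phi q x A B) d = isum q x A ((d : ℕ) + 1) N * b B
      + q * (isum q x A 0 d * b B)
      + (q - 1) * vDiff (fun i j => isum q x i 0 d * b j) A B := by
    simp only [isum, hb]
    rw [← sum_ite_vDiff q x (fun c : Fin N => 0 ≤ (c : ℕ) ∧ (c : ℕ) < (d : ℕ))]
    simp only [mul_sum, sum_mul, ← sum_add_distrib]
    show ∑ c, x c * Phi q x A B c d = _
    refine sum_congr rfl fun c _ => ?_
    rcases lt_trichotomy c d with h | h | h
    · have : ¬((d : ℕ) + 1 ≤ (c : ℕ)) := by have := Fin.lt_def.1 h; omega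
      simp [Phi, h, h.not_gt, Fin.lt_def.1 h, this]
      ring
    · simp [Phi, h]
    · have h' := Fin.lt_def.1 h
      simp [Phi, h, show (d : ℕ) + 1 ≤ (c : ℕ) by omega, show ¬((c : ℕ) < (d : ℕ)) by omega]
      ring
  have hd : (d : ℕ) + 1 ≤ N := d.isLt
  have e1 := qsub_mul_isum q x A hd le_rfl
  have e2 := qsub_mul_isum q x A (Nat.zero_le d) (by omega)
  have e3 : (q - 1) * vDiff (fun i j => isum q x i 0 d * b j) A B
      = - (b (A + 1) * b B) + b 0 * b (A + B + 1)
        - (divDiff (fun i j => ec x i * b j) A B - ec x (A + 1) * b B + b (A + B + 1)) := by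
    rw [← smul_eq_mul, ← vDiff_smul]
    have hF : (fun i j => (q - 1) • (isum q x i 0 d * b j))
        = fun i j => (b (i + 1) * b j + (-1 : R) • (ec x (i + 1) * b j)) + x d • (b i * b j) := by
      funext i j
      simp only [smul_eq_mul, ← mul_assoc, qsub_mul_isum q x i (Nat.zero_le d) (by omega : (d : ℕ) ≤ N),
        pc_eq, pc_zero, hb]
      ring
    rw [hF, vDiff_add, vDiff_add, vDiff_smul, vDiff_smul,
      vDiff_eq_zero (F := fun i j => b i * b j) (fun i j => mul_comm _ _),
      vDiff_shift (fun i j => b i * b j), vDiff_shift (fun i j => ec x i * b j),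
      divDiff_eq_zero (F := fun i j => b i * b j) (fun i j => mul_comm _ _), ec_zero]
    simp only [smul_eq_mul]
    ring
  rw [pc_top, pc_succ] at e1
  rw [pc_eq, pc_zero] at e2
  rw [hsplit]
  show _ = (q - 1) * (qi q (A + 1) * ec x (A + 1) * b B - divDiff (fun i j => ec x i * b j) A B)
  rw [show b 0 = 1 from gc_zero q x d] at e3
  simp only [hb] at e1 e2 e3 ⊢
  linear_combination gc q x B d * e1 + q * gc q x B d * e2 + (q - 1) * e3
    - ec x (A + 1) * gc q x B d * qi_mul q (A + 1)

lemma qi_cancel (m : ℕ) : (q - 1) * qi q m = q ^ m - 1 := by rw [mul_comm, qi_mul]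

theorem opP_Phi [IsDomain R] (hq : q ≠ 1) (A B : ℕ) :
    opP q x (Phi q x A B) = Phi q x B (A + 1)
      + (q - 1) • divDiff (fun i j => Phi q x j i) A B
      + (q * qi q A * ec x (A + 1)) • Phi q x B 0
      - q • divDiff (fun i j => ec x i • Phi q x j 0) A B := by
  funext d e
  simp only [Pi.add_apply, Pi.sub_apply, Pi.smul_apply, smul_eq_mul, divDiff_apply]
  rcases lt_trichotomy d e with h | rfl | h
  · -- the newer mark has the larger colour
    set a := fun j => gc q x j d with ha
    set b := fun j => gc q x j e with hb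
    have hde := Fin.lt_def.1 h
    have hN : (e : ℕ) < N := e.isLt
    have hH : ∀ j, Phi q x j 0 d e = q * a j := fun j => by
      simp [Phi, h, h.not_gt, vDiff_zero, gc_zero, ha]
    have hS : ∀ j i, Phi q x j i d e
        = q * (a j * b i) + (q - 1) * vDiff (fun i j => a i * b j) j i := fun j i => by
      simp [Phi, h, h.not_gt, ha, hb]
    have hsplit : opP q x (Phi q x A B) d e =
        q ^ 3 * (isum q x A 0 d * a B) + q ^ 2 * (isum q x A ((d : ℕ) + 1) e * a B)
          + q * (isum q x A ((e : ℕ) + 1) N * a B)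
          + q ^ 2 * (q - 1) * vDiff (fun i j => isum q x i 0 d * a j) A B := by
      simp only [isum, ha]
      rw [← sum_ite_vDiff q x (fun c : Fin N => 0 ≤ (c : ℕ) ∧ (c : ℕ) < (d : ℕ))]
      simp only [mul_sum, sum_mul, ← sum_add_distrib]
      show ∑ c, x c * (pr q c e * pr q d e) * Phi q x A B c d = _
      refine sum_congr rfl fun c _ => ?_
      rcases lt_trichotomy c d with hc | rfl | hc
      · have hc' := Fin.lt_def.1 hc
        simp [Phi, pr, h, hc, hc.not_gt, hc.trans h, hc', show ¬((d : ℕ) + 1 ≤ c) by omega,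
          show ¬((e : ℕ) + 1 ≤ c) by omega]
        ring
      · simp [Phi, show ¬((e : ℕ) + 1 ≤ c) by omega]
      · have hc' := Fin.lt_def.1 hc
        rcases lt_trichotomy c e with hce | rfl | hce
        · have hce' := Fin.lt_def.1 hce
          simp [Phi, pr, h, hc, hce, hce', show (d : ℕ) + 1 ≤ c by omega,
            show ¬((c : ℕ) < d) by omega, show ¬((e : ℕ) + 1 ≤ c) by omega]
          ring
        · simp [pr, show ¬((c : ℕ) < d) by omega]
        · have hce' := Fin.lt_def.1 hce
          simp [Phi, pr, h, hc, hce, hce.not_gt, show (e : ℕ) + 1 ≤ c by omega,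
            show ¬((c : ℕ) < d) by omega, show ¬((c : ℕ) < e) by omega]
          ring
    have e1 := qsub_mul_isum q x A (Nat.zero_le d) (by omega)
    have e2 := qsub_mul_isum q x A (show (d : ℕ) + 1 ≤ e by omega) (by omega)
    have e3 := qsub_mul_isum q x A (show (e : ℕ) + 1 ≤ N by omega) le_rfl
    rw [pc_eq, pc_zero] at e1
    rw [pc_eq, pc_succ] at e2
    rw [pc_top, pc_succ] at e3
    have e4 : (q - 1) * vDiff (fun i j => isum q x i 0 d * a j) A B
        = - (a (A + 1) * a B) + a (A + B + 1)
          - (divDiff (fun i j => ec x i * a j) A B - ec x (A + 1) * a B + a (A + B + 1)) := by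
      rw [← smul_eq_mul, ← vDiff_smul]
      have hF : (fun i j => (q - 1) • (isum q x i 0 d * a j))
          = fun i j => (a (i + 1) * a j + (-1 : R) • (ec x (i + 1) * a j)) + x d • (a i * a j) := by
        funext i j
        simp only [smul_eq_mul, ← mul_assoc,
          qsub_mul_isum q x i (Nat.zero_le d) (by omega : (d : ℕ) ≤ N), pc_eq, pc_zero, ha]
        ring
      rw [hF, vDiff_add, vDiff_add, vDiff_smul, vDiff_smul,
        vDiff_eq_zero (F := fun i j => a i * a j) (fun i j => mul_comm _ _),
        vDiff_shift (fun i j => a i * a j), vDiff_shift (fun i j => ec x i * a j),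
        divDiff_eq_zero (F := fun i j => a i * a j) (fun i j => mul_comm _ _), ec_zero]
      simp only [smul_eq_mul, ha, gc_zero]
      ring
    have r1 : divDiff (fun i j => Phi q x j i d e) A B
        = - q * divDiff (fun i j => a i * b j) A B
          + (q - 1) * divDiff (fun i j => a i * b j) A B := by
      simp only [hS, ← smul_eq_mul (q : R), ← smul_eq_mul (q - 1 : R)]
      rw [divDiff_add, divDiff_smul, divDiff_smul, divDiff_vDiff,
        divDiff_swap (fun i j => a i * b j)]
      simp
    have r2 : divDiff (fun i j => ec x i * Phi q x j 0 d e) A B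
        = q * divDiff (fun i j => ec x i * a j) A B := by
      rw [← smul_eq_mul, ← divDiff_smul]
      congr 1
      funext i j
      rw [hH, smul_eq_mul]; ring
    rw [r1, r2, hH, hS, vDiff_succ, divDiff_comm _ B A, hsplit]
    refine mul_left_cancel₀ (sub_ne_zero.2 hq) ?_
    simp only [ha, hb] at e4 ⊢
    linear_combination q ^ 3 * gc q x B d * e1 + q ^ 2 * gc q x B d * e2
      + q * gc q x B d * e3 + q ^ 2 * (q - 1) * e4
      - q ^ 2 * ec x (A + 1) * gc q x B d * qi_cancel q A
  · simp [opP, Phi, pr, divDiff]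
  · -- the newer mark has the smaller colour
    set a := fun j => gc q x j d with ha
    set b := fun j => gc q x j e with hb
    have hed := Fin.lt_def.1 h
    have hN : (d : ℕ) < N := d.isLt
    have hS : ∀ j i, Phi q x j i d e = a j * b i := fun j i => by simp [Phi, h, ha, hb]
    have hH : ∀ j, Phi q x j 0 d e = a j := fun j => by simp [hS, hb, gc_zero]
    have hsplit : opP q x (Phi q x A B) d e =
        isum q x A ((d : ℕ) + 1) N * a B + q * (isum q x A ((e : ℕ) + 1) d * a B)
          + q ^ 2 * (isum q x A 0 e * a B)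
          + (q - 1) * (vDiff (fun i j => isum q x i ((e : ℕ) + 1) d * a j) A B
            + q * vDiff (fun i j => isum q x i 0 e * a j) A B) := by
      simp only [isum, ha]
      rw [← sum_ite_vDiff q x (fun c : Fin N => (e : ℕ) + 1 ≤ (c : ℕ) ∧ (c : ℕ) < (d : ℕ)),
        ← sum_ite_vDiff q x (fun c : Fin N => 0 ≤ (c : ℕ) ∧ (c : ℕ) < (e : ℕ))]
      simp only [mul_sum, sum_mul, ← sum_add_distrib]
      show ∑ c, x c * (pr q c e * pr q d e) * Phi q x A B c d = _
      refine sum_congr rfl fun c _ => ?_
      rcases lt_trichotomy c e with hc | rfl | hc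
      · have hc' := Fin.lt_def.1 hc
        simp [Phi, pr, h, h.not_gt, hc, hc.trans h, (hc.trans h).not_gt, hc',
          show ¬((d : ℕ) + 1 ≤ c) by omega, show ¬((e : ℕ) + 1 ≤ c) by omega]
        ring
      · simp [pr, show ¬((d : ℕ) + 1 ≤ c) by omega]
      · have hc' := Fin.lt_def.1 hc
        rcases lt_trichotomy c d with hcd | rfl | hcd
        · have hcd' := Fin.lt_def.1 hcd
          simp [Phi, pr, h, h.not_gt, hc, hc.not_gt, hcd, hcd.not_gt, hcd',
            show (e : ℕ) + 1 ≤ c by omega, show ¬((c : ℕ) < e) by omega,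
            show ¬((d : ℕ) + 1 ≤ c) by omega]
          ring
        · simp [Phi, show ¬((c : ℕ) < e) by omega]
        · have hcd' := Fin.lt_def.1 hcd
          simp [Phi, pr, h, h.not_gt, hc, hc.not_gt, hcd, show (d : ℕ) + 1 ≤ c by omega,
            show ¬((c : ℕ) < d) by omega, show ¬((c : ℕ) < e) by omega]
          ring
    have e1 := qsub_mul_isum q x A (show (d : ℕ) + 1 ≤ N by omega) le_rfl
    have e2 := qsub_mul_isum q x A (show (e : ℕ) + 1 ≤ d by omega) (by omega)
    have e3 := qsub_mul_isum q x A (Nat.zero_le e) (by omega)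
    rw [pc_top, pc_succ] at e1
    rw [pc_eq, pc_succ] at e2
    rw [pc_eq, pc_zero] at e3
    have e4 : (q - 1) * (vDiff (fun i j => isum q x i ((e : ℕ) + 1) d * a j) A B
          + q * vDiff (fun i j => isum q x i 0 e * a j) A B)
        = - (a (A + 1) * a B) + a (A + B + 1)
          + (q - 1) * (divDiff (fun i j => b i * a j) A B - b (A + 1) * a B + a (A + B + 1))
          - q * (divDiff (fun i j => ec x i * a j) A B - ec x (A + 1) * a B + a (A + B + 1)) := by
      rw [mul_add, mul_left_comm (q - 1) q, ← smul_eq_mul (q - 1), ← smul_eq_mul (q - 1),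
        ← vDiff_smul, ← vDiff_smul, ← smul_eq_mul q, ← vDiff_smul, ← vDiff_add]
      have hF : (fun i j => (q - 1) • (isum q x i ((e : ℕ) + 1) d * a j)
            + q • ((q - 1) • (isum q x i 0 e * a j)))
          = fun i j => ((a (i + 1) * a j + (q - 1) • (b (i + 1) * a j))
              + (-q) • (ec x (i + 1) * a j)) + x d • (a i * a j) := by
        funext i j
        simp only [smul_eq_mul, ← mul_assoc,
          qsub_mul_isum q x i (show (e : ℕ) + 1 ≤ d by omega) (by omega : (d : ℕ) ≤ N),
          qsub_mul_isum q x i (Nat.zero_le e) (by omega : (e : ℕ) ≤ N),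
          pc_eq, pc_succ, pc_zero, ha, hb]
        ring
      rw [hF, vDiff_add, vDiff_add, vDiff_add, vDiff_smul, vDiff_smul, vDiff_smul,
        vDiff_eq_zero (F := fun i j => a i * a j) (fun i j => mul_comm _ _),
        vDiff_shift (fun i j => a i * a j), vDiff_shift (fun i j => b i * a j),
        vDiff_shift (fun i j => ec x i * a j),
        divDiff_eq_zero (F := fun i j => a i * a j) (fun i j => mul_comm _ _), ec_zero]
      simp only [smul_eq_mul, ha, hb, gc_zero]
      ring
    have r1 : divDiff (fun i j => Phi q x j i d e) A B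
        = divDiff (fun i j => b i * a j) A B := by
      simp only [hS, mul_comm]
    have r2 : divDiff (fun i j => ec x i * Phi q x j 0 d e) A B
        = divDiff (fun i j => ec x i * a j) A B := by simp only [hH]
    rw [r1, r2, hH, hS, hsplit]
    refine mul_left_cancel₀ (sub_ne_zero.2 hq) ?_
    simp only [ha, hb] at e4 ⊢
    linear_combination gc q x B d * e1 + q * gc q x B d * e2 + q ^ 2 * gc q x B d * e3
      + (q - 1) * e4 - q * ec x (A + 1) * gc q x B d * qi_cancel q A

end Vale.Agent.P066.Two
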