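import Vale.Agent.P066.Two.Chain

/-!
# The positive cones for one and two marks, uniformly in the number of colours
-/

open Finset

namespace Vale.Agent.P066.Two

/-- The coefficient ring with `N` colours. -/
abbrev Ring' (N : ℕ) : Type := MvPolynomial (Fin N) (Polynomial ℤ)

/-- The variable `q`. -/
noncomputable def qv (N : ℕ) : Ring' N := MvPolynomial.C Polynomial.X

/-- The colour variables. -/
noncomputable def xv (N : ℕ) : Fin N → Ring' N := MvPolynomial.X

lemma qv_ne_one (N : ℕ) : qv N ≠ 1 := by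
  rw [qv, ← MvPolynomial.C_1]
  intro h
  exact Polynomial.X_ne_C (1 : ℤ) (by rw [map_one]; exact MvPolynomial.C_injective _ _ h)

/-- Polynomials in `q` and the `e_i` with nonnegative coefficients. -/
inductive EPos : (∀ N, Ring' N) → Prop
  | zero : EPos fun _ => 0
  | one : EPos fun _ => 1
  | add {f g : ∀ N, Ring' N} : EPos f → EPos g → EPos fun N => f N + g N
  | q_mul {f : ∀ N, Ring' N} : EPos f → EPos fun N => qv N * f N
  | e_mul (i : ℕ) {f : ∀ N, Ring' N} : EPos f → EPos fun N => ec (xv N) i * f N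

lemma EPos.of_eq {f g : ∀ N, Ring' N} (h : EPos f) (e : ∀ N, g N = f N) : EPos g :=
  (funext e : g = f) ▸ h

lemma EPos.mul {f g : ∀ N, Ring' N} (hf : EPos f) (hg : EPos g) :
    EPos fun N => f N * g N := by
  induction hf with
  | zero => exact EPos.zero.of_eq fun N => zero_mul _
  | one => exact hg.of_eq fun N => one_mul _
  | add _ _ ih ih' => exact (ih.add ih').of_eq fun N => add_mul _ _ _
  | q_mul _ ih => exact ih.q_mul.of_eq fun N => mul_assoc _ _ _
  | e_mul i _ ih => exact (ih.e_mul i).of_eq fun N => mul_assoc _ _ _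

lemma EPos.qpow (i : ℕ) : EPos fun N => qv N ^ i := by
  induction i with
  | zero => exact EPos.one.of_eq fun N => pow_zero _
  | succ i ih => exact ih.q_mul.of_eq fun N => pow_succ' _ _

lemma EPos.qint (m : ℕ) : EPos fun N => qi (qv N) m := by
  induction m with
  | zero => exact EPos.zero.of_eq fun N => qi_zero _
  | succ m ih => exact (ih.add (EPos.qpow m)).of_eq fun N => qi_succ _ _

lemma EPos.e (i : ℕ) : EPos fun N => ec (xv N) i :=
  (EPos.one.e_mul i).of_eq fun _ => (mul_one _).symm

lemma qi_sub {R : Type*} [CommRing R] (q : R) {m n : ℕ} (h : n ≤ m) :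
    qi q m - qi q n = q ^ n * qi q (m - n) := by
  obtain ⟨k, rfl⟩ := Nat.exists_eq_add_of_le h
  rw [qi_add, Nat.add_sub_cancel_left]; ring

variable {V W : ℕ → Type} [∀ N, AddCommGroup (V N)] [∀ N, Module (Ring' N) (V N)]
  [∀ N, AddCommGroup (W N)] [∀ N, Module (Ring' N) (W N)]

/-- Nonnegative combinations of admissible generators. -/
inductive Cone {ι : Type} (gens : ι → ∀ N, V N) (ok : ι → Prop) : (∀ N, V N) → Prop
  | zero : Cone gens ok fun _ => 0
  | add {f g : ∀ N, V N} : Cone gens ok f → Cone gens ok g → Cone gens ok fun N => f N + g N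
  | of {c : ∀ N, Ring' N} {i : ι} : EPos c → ok i → Cone gens ok fun N => c N • gens i N

variable {ι κ : Type} {gens : ι → ∀ N, V N} {ok : ι → Prop}
  {gens' : κ → ∀ N, W N} {ok' : κ → Prop}

lemma Cone.of_eq {f g : ∀ N, V N} (h : Cone gens ok f) (e : ∀ N, g N = f N) : Cone gens ok g :=
  (funext e : g = f) ▸ h

lemma Cone.gen {i : ι} (hi : ok i) : Cone gens ok (gens i) :=
  (Cone.of EPos.one hi).of_eq fun _ => (one_smul _ _).symm

lemma Cone.smul {c : ∀ N, Ring' N} {f : ∀ N, V N} (hc : EPos c) (hf : Cone gens ok f) :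
    Cone gens ok fun N => c N • f N := by
  induction hf with
  | zero => exact Cone.zero.of_eq fun N => smul_zero _
  | add _ _ ih ih' => exact (ih.add ih').of_eq fun N => smul_add _ _ _
  | of hd hi => exact (Cone.of (hc.mul hd) hi).of_eq fun N => smul_smul _ _ _

lemma Cone.sum {n : ℕ} {f : ℕ → ∀ N, V N} (h : ∀ i < n, Cone gens ok (f i)) :
    Cone gens ok fun N => ∑ i ∈ range n, f i N := by
  induction n with
  | zero => exact Cone.zero.of_eq fun N => sum_range_zero _
  | succ n ih =>
    exact ((ih fun i hi => h i (hi.trans n.lt_succ_self)).add (h n n.lt_succ_self)).of_eq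
      fun N => sum_range_succ _ _

lemma Cone.map (T : ∀ N, V N →ₗ[Ring' N] W N) {f : ∀ N, V N} (hf : Cone gens ok f)
    (h : ∀ i, ok i → Cone gens' ok' fun N => T N (gens i N)) :
    Cone gens' ok' fun N => T N (f N) := by
  induction hf with
  | zero => exact Cone.zero.of_eq fun N => map_zero _
  | add _ _ ih ih' => exact (ih.add ih').of_eq fun N => map_add _ _ _
  | of hc hi => exact ((h _ hi).smul hc).of_eq fun N => map_smul _ _ _

/-- One-mark generators. -/
noncomputable def gen1 (A : ℕ) (N : ℕ) : Fin N → Ring' N := gc (qv N) (xv N) A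

/-- The one-mark cone. -/
def One (f : ∀ N, Fin N → Ring' N) : Prop := Cone gen1 (fun _ => True) f

/-- Indices of the two-mark generators. -/
inductive Idx
  | chain (M : ℕ)
  | even (a M : ℕ)
  | odd (a M : ℕ)

/-- Two-mark generators. -/
noncomputable def gen2 : Idx → ∀ N, Fin N → Fin N → Ring' N
  | .chain M, N => chainK (qv N) (ec (xv N)) (Phi (qv N) (xv N)) M
  | .even a M, N => atom (qv N) (Phi (qv N) (xv N)) a a M
  | .odd a M, N => atom (qv N) (Phi (qv N) (xv N)) (a + 1) a M

/-- Admissible indices. -/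
def Idx.Ok : Idx → Prop
  | .chain _ => True
  | .even a M => 1 ≤ a ∧ 2 * a ≤ M
  | .odd a M => 2 * a + 1 ≤ M

/-- The two-mark cone. -/
def Pair (f : ∀ N, Fin N → Fin N → Ring' N) : Prop := Cone gen2 Idx.Ok f

lemma pair_H (A : ℕ) : Pair fun N => Phi (qv N) (xv N) A 0 := by
  cases A with
  | zero =>
    refine (Cone.gen (i := Idx.chain 0) trivial).of_eq fun N => ?_
    show _ = chainK _ _ _ 0
    rw [chainK_eq]; simp [chainF]
  | succ A =>
    exact (Cone.gen (i := Idx.odd 0 (A + 1)) (by simp [Idx.Ok])).of_eq fun N =>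
      (atom_one_zero _ _).symm

lemma opD_hT (N A B : ℕ) : opD (xv N) (Phi (qv N) (xv N) A B)
    = (qi (qv N) (A + 1) * ec (xv N) (A + 1)) • gc (qv N) (xv N) B
      - divDiff (fun i j => ec (xv N) i • gc (qv N) (xv N) j) A B := by
  funext d
  rw [opD_Phi (qv N) (xv N) (qv_ne_one N)]
  simp [divDiff_apply]

theorem pair_opP {f : ∀ N, Fin N → Fin N → Ring' N} (hf : Pair f) :
    Pair fun N => opP (qv N) (xv N) (f N) := by
  refine hf.map (fun N => opP (qv N) (xv N)) fun i hi => ?_
  have he : ∀ N, ec (xv N) 0 = 1 := fun N => ec_zero _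
  have hT := fun N => opP_Phi (qv N) (xv N) (qv_ne_one N)
  cases i with
  | chain M =>
    exact ((Cone.gen (gens := gen2) (i := Idx.chain (M + 1)) trivial).add
      ((pair_H (M + 1)).smul (EPos.qint M).q_mul)).of_eq
      fun N => opP_chainK (opP (qv N) (xv N)) (he N) (hT N) M
  | even a M =>
    obtain ⟨ha, hM⟩ := hi
    refine (((Cone.gen (gens := gen2) (i := Idx.odd a (M + 1))
        (show 2 * a + 1 ≤ M + 1 by omega)).add
      (Cone.sum (n := a + 1) fun j _ => (pair_H (M + 1 - j)).smul
        ((((EPos.qint (a - 1)).mul (EPos.qpow (j + 1))).mul (EPos.qint (a + 1 - j))).mul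
          (EPos.e j)))).add
      (Cone.sum (n := a) fun j _ => (pair_H j).smul
        ((((EPos.qpow (j + 1)).mul (EPos.qint (a - j))).mul
          ((EPos.qpow (a - j + 1)).mul (EPos.qint (M - j - (a - j + 1))))).mul
            (EPos.e (M + 1 - j))))).of_eq fun N => ?_
    simp only [gen2]
    rw [opP_atom_eq (qv N) (opP (qv N) (xv N)) (he N) (hT N) ha (by omega)]
    refine congrArg₂ (· + ·) rfl (sum_congr rfl fun j hj => ?_)
    rw [mem_range] at hj
    rw [qi_sub (qv N) (show a - j + 1 ≤ M - j by omega)]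
  | odd a M =>
    have hM : 2 * a + 1 ≤ M := hi
    refine (((Cone.gen (gens := gen2) (i := Idx.even (a + 1) (M + 1))
        (show 1 ≤ a + 1 ∧ 2 * (a + 1) ≤ M + 1 by omega)).add
      (Cone.sum (n := a + 1) fun j _ => (pair_H (M + 1 - j)).smul
        ((((EPos.qint a).mul (EPos.qpow (j + 1))).mul (EPos.qint (a + 1 - j))).mul
          (EPos.e j)))).add
      (Cone.sum (n := a + 1) fun j _ => (pair_H j).smul
        ((((EPos.qpow (j + 1)).mul (EPos.qint (a + 1 - j))).mul
          ((EPos.qpow (a + 1 - j)).mul (EPos.qint (M - j - (a + 1 - j))))).mul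
            (EPos.e (M + 1 - j))))).of_eq fun N => ?_
    simp only [gen2]
    rw [opP_atom_succ (qv N) (opP (qv N) (xv N)) (he N) (hT N) (by omega)]
    refine congrArg₂ (· + ·) rfl (sum_congr rfl fun j hj => ?_)
    rw [mem_range] at hj
    rw [qi_sub (qv N) (show a + 1 - j ≤ M - j by omega)]

theorem pair_opD {f : ∀ N, Fin N → Fin N → Ring' N} (hf : Pair f) :
    One fun N => opD (xv N) (f N) := by
  refine hf.map (fun N => opD (xv N)) fun i hi => ?_
  have he : ∀ N, ec (xv N) 0 = 1 := fun N => ec_zero _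
  have g : ∀ A, Cone gen1 (fun _ => True) (gen1 A) := fun A => Cone.gen trivial
  cases i with
  | chain M =>
    exact ((g (M + 1)).smul (EPos.qint (M + 1))).of_eq
      fun N => opD_chainK (opD (xv N)) (he N) (opD_hT N) M
  | even a M =>
    obtain ⟨ha, hM⟩ := hi
    refine ((Cone.sum (n := a + 1) fun j _ => (g (M + 1 - j)).smul
        ((((EPos.qint a).mul (EPos.qpow j)).mul (EPos.qint (a + 1 - j))).mul (EPos.e j))).add
      (Cone.sum (n := a) fun j _ => (g j).smul
        ((((EPos.qpow j).mul (EPos.qint (a - j))).mul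
          ((EPos.qpow (a - j + 1)).mul (EPos.qint (M + 1 - j - (a - j + 1))))).mul
            (EPos.e (M + 1 - j))))).of_eq fun N => ?_
    simp only [gen1, gen2]
    rw [opD_atom_eq (qv N) (opD (xv N)) (he N) (opD_hT N) (by omega)]
    refine congrArg₂ (· + ·) rfl (sum_congr rfl fun j hj => ?_)
    rw [mem_range] at hj
    rw [qi_sub (qv N) (show a - j + 1 ≤ M + 1 - j by omega)]
  | odd a M =>
    have hM : 2 * a + 1 ≤ M := hi
    refine ((Cone.sum (n := a + 1) fun j _ => (g (M + 1 - j)).smul
        ((((EPos.qint (a + 1)).mul (EPos.qpow j)).mul (EPos.qint (a + 1 - j))).mul (EPos.e j))).add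
      (Cone.sum (n := a + 1) fun j _ => (g j).smul
        ((((EPos.qpow j).mul (EPos.qint (a + 1 - j))).mul
          ((EPos.qpow (a + 1 - j)).mul (EPos.qint (M + 1 - j - (a + 1 - j))))).mul
            (EPos.e (M + 1 - j))))).of_eq fun N => ?_
    simp only [gen1, gen2]
    rw [opD_atom_succ (qv N) (opD (xv N)) (he N) (opD_hT N) (by omega)]
    refine congrArg₂ (· + ·) rfl (sum_congr rfl fun j hj => ?_)
    rw [mem_range] at hj
    rw [qi_sub (qv N) (show a + 1 - j ≤ M + 1 - j by omega)]

theorem one_opU {f : ∀ N, Fin N → Ring' N} (hf : One f) : Pair fun N => opU (qv N) (f N) :=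
  hf.map (fun N => opU (qv N)) fun A _ =>
    (pair_H A).of_eq fun N => (Phi_zero_right (qv N) (xv N) A).symm

theorem one_opC {f : ∀ N, Fin N → Ring' N} (hf : One f) :
    EPos fun N => opC (xv N) (f N) := by
  change Cone gen1 (fun _ => True) f at hf
  induction hf with
  | zero => exact EPos.zero.of_eq fun N => map_zero _
  | add _ _ ih ih' => exact (ih.add ih').of_eq fun N => map_add _ _ _
  | @of c A hc _ =>
    refine (hc.mul ((EPos.qint (A + 1)).mul (EPos.e (A + 1)))).of_eq fun N => ?_
    rw [map_smul, smul_eq_mul]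
    exact congrArg _ (opC_gc (qv N) (xv N) (qv_ne_one N) A)

theorem one_const {c : ∀ N, Ring' N} (hc : EPos c) : One fun N _ => c N :=
  (Cone.of (gens := gen1) (i := 0) hc trivial).of_eq fun N => by
    funext d; simp [gen1, gc_zero]

end Vale.Agent.P066.Two
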