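import Mathlib

/-!
# Divided differences of two-index arrays
`divDiff F A B` is the coefficient of `u^A v^B` in `(F(u,v) - F(v,u)) / (u - v)`.
-/

open Finset

namespace Vale.Agent.P066.Two

variable {M : Type*} [AddCommGroup M]

/-- The divided difference of an array. -/
def divDiff (F : ℕ → ℕ → M) (A B : ℕ) : M :=
  ∑ j ∈ range (min A B + 1), (F (A + B + 1 - j) j - F j (A + B + 1 - j))

lemma divDiff_comm (F : ℕ → ℕ → M) (A B : ℕ) : divDiff F A B = divDiff F B A := by
  simp [divDiff, min_comm, Nat.add_comm A B]

lemma divDiff_swap (F : ℕ → ℕ → M) (A B : ℕ) :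
    divDiff (fun i j => F j i) A B = - divDiff F A B := by
  simp only [divDiff, ← sum_neg_distrib, neg_sub]

lemma divDiff_eq_zero {F : ℕ → ℕ → M} (h : ∀ i j, F i j = F j i) (A B : ℕ) :
    divDiff F A B = 0 :=
  sum_eq_zero fun j _ => by rw [h, sub_self]

lemma divDiff_add (F F' : ℕ → ℕ → M) (A B : ℕ) :
    divDiff (fun i j => F i j + F' i j) A B = divDiff F A B + divDiff F' A B := by
  rw [divDiff, divDiff, divDiff, ← sum_add_distrib]
  exact sum_congr rfl fun j _ => by abel

lemma divDiff_smul {R : Type*} [Ring R] [Module R M] (c : R) (F : ℕ → ℕ → M) (A B : ℕ) :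
    divDiff (fun i j => c • F i j) A B = c • divDiff F A B := by
  simp only [divDiff, smul_sum, smul_sub]

lemma divDiff_apply {ι : Type*} {V : ι → Type*} [∀ i, AddCommGroup (V i)]
    (F : ℕ → ℕ → ∀ i, V i) (A B : ℕ) (x : ι) :
    divDiff F A B x = divDiff (fun i j => F i j x) A B := by
  simp [divDiff, Finset.sum_apply]

lemma map_divDiff {M' : Type*} [AddCommGroup M'] (f : M →+ M') (F : ℕ → ℕ → M) (A B : ℕ) :
    f (divDiff F A B) = divDiff (fun i j => f (F i j)) A B := by
  simp [divDiff, map_sum]

/-- `v` times the divided difference. -/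
def vDiff (F : ℕ → ℕ → M) : ℕ → ℕ → M
  | _, 0 => 0
  | A, B + 1 => divDiff F A B

lemma vDiff_zero (F : ℕ → ℕ → M) (A : ℕ) : vDiff F A 0 = 0 := rfl

lemma vDiff_succ (F : ℕ → ℕ → M) (A B : ℕ) : vDiff F A (B + 1) = divDiff F A B := rfl

lemma map_vDiff {M' : Type*} [AddCommGroup M'] (f : M →+ M') (F : ℕ → ℕ → M) (A B : ℕ) :
    f (vDiff F A B) = vDiff (fun i j => f (F i j)) A B := by
  cases B with
  | zero => exact map_zero f
  | succ B => exact map_divDiff f F A B

lemma vDiff_add (F F' : ℕ → ℕ → M) (A B : ℕ) :
    vDiff (fun i j => F i j + F' i j) A B = vDiff F A B + vDiff F' A B := by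
  cases B with
  | zero => exact (add_zero _).symm
  | succ B => exact divDiff_add F F' A B

lemma vDiff_smul {R : Type*} [Ring R] [Module R M] (c : R) (F : ℕ → ℕ → M) (A B : ℕ) :
    vDiff (fun i j => c • F i j) A B = c • vDiff F A B := by
  cases B with
  | zero => exact (smul_zero c).symm
  | succ B => exact divDiff_smul c F A B

lemma vDiff_eq_zero {F : ℕ → ℕ → M} (h : ∀ i j, F i j = F j i) (A B : ℕ) :
    vDiff F A B = 0 := by
  cases B with
  | zero => rfl
  | succ B => exact divDiff_eq_zero h A B

/-- Shifting the first index commutes with the divided difference up to boundary terms. -/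
lemma vDiff_shift (K : ℕ → ℕ → M) (A B : ℕ) :
    vDiff (fun i j => K (i + 1) j) A B
      = divDiff K A B - K (A + 1) B + K 0 (A + B + 1) := by
  cases B with
  | zero => simp [vDiff, divDiff]
  | succ B =>
    rw [vDiff_succ]
    set S := A + (B + 1) + 1 with hS
    set f : ℕ → M := fun j => K j (S - j) with hf
    have ht : ∀ n, ∑ j ∈ range n, (f (j + 1) - f j) = f n - f 0 := fun n => sum_range_sub f n
    have h1 : divDiff (fun i j => K (i + 1) j) A B
        = ∑ j ∈ range (min A B + 1), (K (S - j) j - f (j + 1)) := by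
      refine sum_congr rfl fun j hj => ?_
      rw [mem_range] at hj
      show K (A + B + 1 - j + 1) j - K (j + 1) (A + B + 1 - j) = _
      rw [show A + B + 1 - j + 1 = S - j by omega, show A + B + 1 - j = S - (j + 1) by omega]
    have h2 : divDiff K A (B + 1)
        = ∑ j ∈ range (min A (B + 1) + 1), (K (S - j) j - f j) := rfl
    have h0 : K 0 S = f 0 := by simp [hf]
    rw [h1, h2, h0]
    rcases Nat.lt_or_ge B A with hBA | hAB
    · rw [min_eq_right hBA.le, min_eq_right (show B + 1 ≤ A by omega), sum_range_succ _ (B + 1)]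
      have hc : ∑ j ∈ range (B + 1), (K (S - j) j - f (j + 1))
          = ∑ j ∈ range (B + 1), (K (S - j) j - f j) - (f (B + 1) - f 0) := by
        rw [← ht, ← sum_sub_distrib]; exact sum_congr rfl fun j _ => by abel
      rw [hc, show S - (B + 1) = A + 1 by omega]
      abel
    · rw [min_eq_left hAB, min_eq_left (show A ≤ B + 1 by omega)]
      have hc : ∑ j ∈ range (A + 1), (K (S - j) j - f (j + 1))
          = ∑ j ∈ range (A + 1), (K (S - j) j - f j) - (f (A + 1) - f 0) := by
        rw [← ht, ← sum_sub_distrib]; exact sum_congr rfl fun j _ => by abel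
      rw [hc, show K (A + 1) (B + 1) = f (A + 1) by simp [hf, hS]]
      abel

/-- The divided difference of a transposed shifted divided difference. -/
lemma divDiff_vDiff (K : ℕ → ℕ → M) (A B : ℕ) :
    divDiff (fun i j => vDiff K j i) A B = divDiff K A B := by
  have hk : ∀ n, n ≤ min A B →
      ∑ j ∈ range (n + 1), (vDiff K j (A + B + 1 - j) - vDiff K (A + B + 1 - j) j)
        = divDiff K n (A + B - n) := by
    intro n hn
    induction n with
    | zero => simp [vDiff_succ, vDiff_zero]
    | succ n ih =>
      rw [sum_range_succ, ih (by omega), show A + B + 1 - (n + 1) = A + B - n by omega,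
        vDiff_succ, show A + B - n = A + B - (n + 1) + 1 by omega, vDiff_succ,
        ← show A + B - n = A + B - (n + 1) + 1 by omega, divDiff_comm K (A + B - n) n]
      abel
  have h := hk (min A B) le_rfl
  rw [divDiff, h]
  rcases le_total A B with hab | hab
  · rw [min_eq_left hab, show A + B - A = B by omega]
  · rw [min_eq_right hab, show A + B - B = A by omega, divDiff_comm]

end Vale.Agent.P066.Two
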