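import Vale.Agent.P066.Two.Cone
import Vale.Agent.P066.Defs

/-!
# Colourings as walks, and positivity for clique number at most three
-/

open Finset

namespace Vale.Agent.P066.Two

variable {R : Type*} [CommRing R] {N : ℕ} (q : R) (x : Fin N → R)

/-- Sum over colourings of the first `j` vertices; vertex `b` sees the `K b` previous ones.
The colours are handed to `φ` newest first. -/
def walk (K : ℕ → ℕ) : ℕ → (List (Fin N) → R) → R
  | 0, φ => φ []
  | j + 1, φ => walk K j fun l =>
      ∑ d, x d * ((l.take (K j)).map fun c => pr q c d).prod * φ (d :: l)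

lemma walk_congr (K : ℕ → ℕ) (j : ℕ) {φ φ' : List (Fin N) → R}
    (h : ∀ l, l.length = j → φ l = φ' l) : walk q x K j φ = walk q x K j φ' := by
  induction j generalizing φ φ' with
  | zero => exact h [] rfl
  | succ j ih =>
    refine ih fun l hl => sum_congr rfl fun d _ => ?_
    rw [h (d :: l) (by simp [hl])]

/-- The weight of a colouring. -/
def wgt (K : ℕ → ℕ) {j : ℕ} (f : Fin j → Fin N) : R :=
  ∏ b : Fin j, x (f b) * ∏ i : Fin j,
    if (i : ℕ) < (b : ℕ) ∧ (b : ℕ) - K b ≤ (i : ℕ) then pr q (f i) (f b) else 1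

lemma prod_take (g : Fin N → R) :
    ∀ {j : ℕ} (k : ℕ) (f : Fin j → Fin N),
      (((List.ofFn f).reverse.take k).map g).prod
        = ∏ i : Fin j, if j - k ≤ (i : ℕ) then g (f i) else 1 := by
  intro j
  induction j with
  | zero => intro k f; simp
  | succ j ih =>
    intro k f
    cases k with
    | zero =>
      rw [prod_eq_one fun i _ => if_neg (by have := i.isLt; omega)]
      simp
    | succ k =>
      rw [List.ofFn_succ', List.concat_eq_append, List.reverse_append, List.reverse_singleton,
        List.singleton_append, List.take_succ_cons, List.map_cons, List.prod_cons, ih,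
        Fin.prod_univ_castSucc, mul_comm]
      simp only [Fin.val_castSucc, Fin.val_last, Nat.succ_sub_succ]
      rw [if_pos (by omega)]

lemma walk_eq_sum (K : ℕ → ℕ) :
    ∀ (j : ℕ) (φ : List (Fin N) → R),
      walk q x K j φ = ∑ f : Fin j → Fin N, wgt q x K f * φ (List.ofFn f).reverse := by
  intro j
  induction j with
  | zero => intro φ; simp [walk, wgt]
  | succ j ih =>
    intro φ
    rw [walk, ih, ← (Fin.snocEquiv fun _ => Fin N).sum_comp, Fintype.sum_prod_type, sum_comm]
    refine sum_congr rfl fun f _ => ?_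
    rw [mul_sum]
    refine sum_congr rfl fun d _ => ?_
    have hl : (List.ofFn (Fin.snoc f d : Fin (j + 1) → Fin N)).reverse
        = d :: (List.ofFn f).reverse := by
      rw [List.ofFn_succ', List.concat_eq_append]
      simp
    have hw : wgt q x K (Fin.snoc f d : Fin (j + 1) → Fin N)
        = wgt q x K f * (x d * ∏ i : Fin j, if j - K j ≤ (i : ℕ) then pr q (f i) d else 1) := by
      simp only [wgt, Fin.prod_univ_castSucc, Fin.snoc_castSucc, Fin.snoc_last, Fin.val_castSucc,
        Fin.val_last]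
      congr 1
      · refine prod_congr rfl fun b _ => ?_
        rw [if_neg (show ¬(j < (b : ℕ) ∧ _) from fun h => by have := b.isLt; omega), mul_one]
      · rw [if_neg (show ¬(j < j ∧ _) from fun h => lt_irrefl _ h.1), mul_one]
        congr 1
        refine prod_congr rfl fun i _ => ?_
        rw [if_congr (show ((i : ℕ) < j ∧ j - K j ≤ (i : ℕ)) ↔ j - K j ≤ (i : ℕ) from
          ⟨And.right, fun h => ⟨i.isLt, h⟩⟩) rfl rfl]
    simp only [Fin.snocEquiv, Equiv.coe_fn_mk, hl, hw, prod_take]
    ring

section Graph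

variable {n : ℕ} (h : Fin n → ℕ)

/-- The number of earlier neighbours of vertex `b`. -/
def nbr (b : ℕ) : ℕ := (univ.filter fun i : Fin n => (i : ℕ) < b ∧ b < h i).card

lemma nbr_zero : nbr h 0 = 0 := by simp [nbr]

variable {h}

lemma nbr_top (hh : IsHess n h) : nbr h n = 0 := by
  simp only [nbr, card_eq_zero, filter_eq_empty_iff]
  intro i _ hi
  have := (hh.2 i).2
  omega

lemma nbr_succ (b : ℕ) : nbr h (b + 1) ≤ nbr h b + 1 := by
  unfold nbr
  have hsub : (univ.filter fun i : Fin n => (i : ℕ) < b + 1 ∧ b + 1 < h i)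
      ⊆ (univ.filter fun i : Fin n => (i : ℕ) < b ∧ b < h i)
        ∪ univ.filter fun i : Fin n => (i : ℕ) = b := by
    intro i hi
    simp only [mem_filter, mem_univ, true_and, mem_union] at hi ⊢
    omega
  refine (card_le_card hsub).trans ((card_union_le _ _).trans ?_)
  refine Nat.add_le_add_left ?_ _
  exact card_le_one.2 fun i hi k hk => Fin.ext (by simp at hi hk; omega)

lemma nbr_le_two (h3 : ∀ i : Fin n, h i ≤ (i : ℕ) + 3) (b : ℕ) : nbr h b ≤ 2 := by
  refine (card_le_card_of_injOn (fun i : Fin n => b - 1 - (i : ℕ))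
    (t := range 2) ?_ ?_).trans_eq (card_range 2)
  · intro i hi
    simp only [mem_coe, mem_filter, mem_univ, true_and] at hi
    have := h3 i
    simp only [mem_coe, mem_range]
    omega
  · intro i hi k hk e
    simp only [mem_coe, mem_filter, mem_univ, true_and] at hi hk e
    exact Fin.ext (by omega)

lemma adj_iff (hh : IsHess n h) {i b : Fin n} (hib : (i : ℕ) < b) :
    (b : ℕ) - nbr h b ≤ (i : ℕ) ↔ (b : ℕ) < h i := by
  constructor
  · intro hle
    by_contra hn
    have hsub : (univ.filter fun k : Fin n => (k : ℕ) < b ∧ (b : ℕ) < h k) ⊆ Ioo i b := by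
      intro k hk
      simp only [mem_filter, mem_univ, true_and] at hk
      rw [mem_Ioo]
      refine ⟨?_, hk.1⟩
      by_contra hki
      have := hh.1 (not_lt.1 hki)
      omega
    have := card_le_card hsub
    rw [Fin.card_Ioo] at this
    unfold nbr at hle
    omega
  · intro hlt
    have hsub : Ico i b ⊆ univ.filter fun k : Fin n => (k : ℕ) < b ∧ (b : ℕ) < h k := by
      intro k hk
      rw [mem_Ico] at hk
      simp only [mem_filter, mem_univ, true_and]
      exact ⟨hk.2, lt_of_lt_of_le hlt (hh.1 hk.1)⟩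
    have := card_le_card hsub
    rw [Fin.card_Ico] at this
    unfold nbr
    omega

lemma chi_eq_walk (hh : IsHess n h) (N : ℕ) :
    chi N h = walk (qv N) (xv N) (nbr h) n fun _ => 1 := by
  classical
  rw [walk_eq_sum, chi]
  refine sum_congr rfl fun f _ => ?_
  rw [mul_one, wgt, prod_mul_distrib, ← Fintype.prod_prod_type']
  have hfac : ∀ p : Fin n × Fin n,
      (if (p.2 : ℕ) < (p.1 : ℕ) ∧ (p.1 : ℕ) - nbr h p.1 ≤ (p.2 : ℕ)
        then pr (qv N) (f p.2) (f p.1) else 1)
      = if p.2 < p.1 ∧ (p.1 : ℕ) < h p.2 then pr (qv N) (f p.2) (f p.1) else 1 := by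
    intro p
    refine if_congr ⟨fun hp => ⟨hp.1, (adj_iff hh hp.1).1 hp.2⟩,
      fun hp => ⟨hp.1, (adj_iff hh hp.1).2 hp.2⟩⟩ rfl rfl
  simp only [hfac]
  split_ifs with hp
  · rw [← prod_filter, prod_congr rfl (g := fun p : Fin n × Fin n =>
      if f p.2 < f p.1 then qv N else 1) fun p hp' => ?_]
    · rw [← prod_filter, prod_const, filter_filter, mul_comm, map_pow]
      congr 2
      unfold asc
      refine card_bij (fun p _ => (p.2, p.1)) (fun p hp => ?_) (fun p _ r _ e => ?_)
        fun p hp => ⟨(p.2, p.1), ?_, rfl⟩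
      · simp only [mem_filter, mem_univ, true_and] at hp ⊢; tauto
      · exact Prod.ext (Prod.ext_iff.1 e).2 (Prod.ext_iff.1 e).1
      · simp only [mem_filter, mem_univ, true_and] at hp ⊢; tauto
    · simp only [mem_filter, mem_univ, true_and] at hp'
      rcases lt_trichotomy (f p.2) (f p.1) with hlt | heq | hgt
      · simp [pr, hlt]
      · exact absurd heq (hp _ _ hp'.1 hp'.2)
      · simp [pr, hgt, hgt.not_gt]
  · unfold IsProper at hp
    push Not at hp
    obtain ⟨i, j, hij, hj, he⟩ := hp
    rw [prod_eq_zero (i := ((j, i) : Fin n × Fin n)) (mem_univ _), mul_zero]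
    simp [hij, hj, he, pr]

end Graph

/-- A test function reading the newest colour. -/
def test1 (ψ : Fin N → R) : List (Fin N) → R
  | d :: _ => ψ d
  | [] => 0

/-- A test function reading the two newest colours (older one first). -/
def test2 (ψ : Fin N → Fin N → R) : List (Fin N) → R
  | d :: c :: _ => ψ c d
  | _ => 0

/-- The state after `j` vertices lies in the cone for `k` marks. -/
def Good (K : ℕ → ℕ) (j : ℕ) : ℕ → Prop
  | 0 => ∃ s, EPos s ∧ ∀ N (c : Ring' N), walk (qv N) (xv N) K j (fun _ => c) = s N * c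
  | 1 => 1 ≤ j ∧ ∃ s, One s ∧ ∀ N (ψ : Fin N → Ring' N),
      walk (qv N) (xv N) K j (test1 ψ) = ∑ d, xv N d * s N d * ψ d
  | 2 => 2 ≤ j ∧ ∃ s, Pair s ∧ ∀ N (ψ : Fin N → Fin N → Ring' N),
      walk (qv N) (xv N) K j (test2 ψ) = ∑ c, ∑ d, xv N c * xv N d * s N c d * ψ c d
  | _ => False

lemma Good.drop1 {K : ℕ → ℕ} {j : ℕ} (h : Good K j 1) : Good K j 0 := by
  obtain ⟨hj, s, hs, hw⟩ := h
  refine ⟨fun N => opC (xv N) (s N), one_opC hs, fun N c => ?_⟩
  rw [walk_congr _ _ _ _ (φ' := test1 fun _ => c) fun l hl => ?_, hw]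
  · show _ = (∑ d, xv N d * s N d) * c
    rw [sum_mul]
  · obtain - | ⟨d, t⟩ := l
    · simp at hl; omega
    · rfl

lemma Good.drop2 {K : ℕ → ℕ} {j : ℕ} (h : Good K j 2) : Good K j 1 := by
  obtain ⟨hj, s, hs, hw⟩ := h
  refine ⟨by omega, fun N => opD (xv N) (s N), pair_opD hs, fun N ψ => ?_⟩
  rw [walk_congr _ _ _ _ (φ' := test2 fun _ d => ψ d) fun l hl => ?_, hw, sum_comm]
  · refine sum_congr rfl fun d _ => ?_
    show _ = xv N d * (∑ c, xv N c * s N c d) * ψ d
    rw [mul_sum, sum_mul]
    exact sum_congr rfl fun c _ => by ring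
  · obtain - | ⟨d, - | ⟨c, t⟩⟩ := l
    · simp at hl; omega
    · simp at hl; omega
    · rfl

lemma Good.step0 {K : ℕ → ℕ} {j : ℕ} (hK : K j = 0) (h : Good K j 0) : Good K (j + 1) 1 := by
  obtain ⟨s, hs, hw⟩ := h
  refine ⟨by omega, fun N _ => s N, one_const hs, fun N ψ => ?_⟩
  rw [walk, walk_congr _ _ _ _ (φ' := fun _ => ∑ d, xv N d * ψ d) fun l _ => ?_, hw, mul_sum]
  · exact sum_congr rfl fun d _ => by ring
  · simp [hK, test1]

lemma Good.step1 {K : ℕ → ℕ} {j : ℕ} (hK : K j = 1) (h : Good K j 1) : Good K (j + 1) 2 := by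
  obtain ⟨hj, s, hs, hw⟩ := h
  refine ⟨by omega, fun N => opU (qv N) (s N), one_opU hs, fun N ψ => ?_⟩
  rw [walk, walk_congr _ _ _ _
    (φ' := test1 fun c => ∑ d, xv N d * pr (qv N) c d * ψ c d) fun l hl => ?_, hw]
  · refine sum_congr rfl fun c _ => ?_
    rw [mul_sum]
    refine sum_congr rfl fun d _ => ?_
    show _ = xv N c * xv N d * (pr (qv N) c d * s N c) * ψ c d
    ring
  · obtain - | ⟨c, t⟩ := l
    · simp at hl; omega
    · simp [hK, test1, test2]

lemma Good.step2 {K : ℕ → ℕ} {j : ℕ} (hK : K j = 2) (h : Good K j 2) : Good K (j + 1) 2 := by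
  obtain ⟨hj, s, hs, hw⟩ := h
  refine ⟨by omega, fun N => opP (qv N) (xv N) (s N), pair_opP hs, fun N ψ => ?_⟩
  rw [walk, walk_congr _ _ _ _
    (φ' := test2 fun c d => ∑ e, xv N e * (pr (qv N) c e * pr (qv N) d e) * ψ d e) fun l hl => ?_,
    hw, sum_comm]
  · refine sum_congr rfl fun d _ => ?_
    simp only [mul_sum]
    rw [sum_comm]
    refine sum_congr rfl fun e _ => ?_
    show _ = xv N d * xv N e * (∑ c, xv N c * (pr (qv N) c e * pr (qv N) d e) * s N c d) * ψ d e
    rw [mul_sum, sum_mul]
    exact sum_congr rfl fun c _ => by ring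
  · obtain - | ⟨d, - | ⟨c, t⟩⟩ := l
    · simp at hl; omega
    · simp at hl; omega
    · simp [hK, test2, mul_comm]

lemma good_all {K : ℕ → ℕ} (h0 : K 0 = 0) (hs : ∀ b, K (b + 1) ≤ K b + 1) (h2 : ∀ b, K b ≤ 2) :
    ∀ j, Good K j (K j) := by
  intro j
  induction j with
  | zero =>
    rw [h0]
    exact ⟨fun _ => 1, EPos.one, fun N c => by simp [walk]⟩
  | succ j ih =>
    have a := h2 j
    have b := h2 (j + 1)
    have c := hs j
    rcases (show K j = 0 ∨ K j = 1 ∨ K j = 2 by omega) with e | e | e <;> rw [e] at ih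
    · have g := ih.step0 e
      rcases (show K (j + 1) = 0 ∨ K (j + 1) = 1 by omega) with f | f <;> rw [f]
      exacts [g.drop1, g]
    · have g := ih.step1 e
      rcases (show K (j + 1) = 0 ∨ K (j + 1) = 1 ∨ K (j + 1) = 2 by omega) with f | f | f <;> rw [f]
      exacts [g.drop2.drop1, g.drop2, g]
    · have g := ih.step2 e
      rcases (show K (j + 1) = 0 ∨ K (j + 1) = 1 ∨ K (j + 1) = 2 by omega) with f | f | f <;> rw [f]
      exacts [g.drop2.drop1, g.drop2, g]

/-- A positive family is a list of nonnegative multiples of products of `e_i`. -/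
lemma EPos.expand {f : ∀ N, Ring' N} (hf : EPos f) :
    ∃ L : List (Polynomial ℕ × Multiset ℕ), ∀ N, f N = (L.map fun t =>
      MvPolynomial.C (t.1.map (Nat.castRingHom ℤ)) * (t.2.map (ec (xv N))).prod).sum := by
  induction hf with
  | zero => exact ⟨[], fun N => rfl⟩
  | one => exact ⟨[(1, 0)], fun N => by simp⟩
  | add _ _ ih ih' =>
    obtain ⟨L, hL⟩ := ih
    obtain ⟨L', hL'⟩ := ih'
    exact ⟨L ++ L', fun N => by simp [hL N, hL' N]⟩
  | q_mul _ ih =>
    obtain ⟨L, hL⟩ := ih
    refine ⟨L.map fun t => (Polynomial.X * t.1, t.2), fun N => ?_⟩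
    simp only
    rw [hL N, ← List.sum_map_mul_left, List.map_map]
    refine congrArg List.sum (List.map_congr_left fun t _ => ?_)
    simp [qv, mul_assoc]
  | e_mul i _ ih =>
    obtain ⟨L, hL⟩ := ih
    refine ⟨L.map fun t => (t.1, i ::ₘ t.2), fun N => ?_⟩
    simp only
    rw [hL N, ← List.sum_map_mul_left, List.map_map]
    refine congrArg List.sum (List.map_congr_left fun t _ => ?_)
    simp [mul_left_comm]

lemma ec_eq_esymm (N k : ℕ) : ec (xv N) k = MvPolynomial.esymm (Fin N) (Polynomial ℤ) k := rfl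

lemma isHomogeneous_ec (N k : ℕ) : (ec (xv N) k).IsHomogeneous k := by
  refine MvPolynomial.IsHomogeneous.sum _ _ _ fun t ht => ?_
  have := MvPolynomial.IsHomogeneous.prod t (fun i => xv N i) (fun _ => 1)
    fun i _ => MvPolynomial.isHomogeneous_X _ i
  simpa [(mem_powersetCard.1 ht).2] using this

lemma isHomogeneous_eprod (N : ℕ) (μ : Multiset ℕ) :
    ((μ.map (ec (xv N))).prod).IsHomogeneous μ.sum := by
  induction μ using Multiset.induction with
  | empty => simpa using MvPolynomial.isHomogeneous_one (Fin N) (Polynomial ℤ)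
  | cons k μ ih => simpa using (isHomogeneous_ec N k).mul ih

lemma isHomogeneous_chi {n : ℕ} (h : Fin n → ℕ) (N : ℕ) : (chi N h).IsHomogeneous n := by
  classical
  unfold chi
  refine MvPolynomial.IsHomogeneous.sum _ _ _ fun f _ => ?_
  split_ifs
  · have h1 : (∏ a : Fin n, (MvPolynomial.X (f a) : Ring' N)).IsHomogeneous
        (∑ _a : Fin n, 1) :=
      MvPolynomial.IsHomogeneous.prod univ _ _ fun a _ => MvPolynomial.isHomogeneous_X _ _
    rw [sum_const, card_univ, Fintype.card_fin, smul_eq_mul, mul_one] at h1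
    exact h1.C_mul _
  · exact MvPolynomial.isHomogeneous_zero _ _ _

/-- The degree `n` part of a positive family expands positively in the `e_λ` with `λ ⊢ n`. -/
lemma component_expand (n : ℕ) (L : List (Polynomial ℕ × Multiset ℕ)) :
    ∃ c : n.Partition → Polynomial ℕ, ∀ N,
      MvPolynomial.homogeneousComponent n ((L.map fun t =>
        MvPolynomial.C (t.1.map (Nat.castRingHom ℤ)) * (t.2.map (ec (xv N))).prod).sum)
      = ∑ l, MvPolynomial.C ((c l).map (Nat.castRingHom ℤ)) * elemProd N l := by
  classical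
  induction L with
  | nil => exact ⟨0, fun N => by simp⟩
  | cons t L ih =>
    obtain ⟨c, hc⟩ := ih
    by_cases ht : t.2.sum = n
    · let l₀ : n.Partition :=
        { parts := t.2.filter fun k => k ≠ 0
          parts_pos := fun hk => Nat.pos_of_ne_zero (Multiset.mem_filter.1 hk).2
          parts_sum := by
            rw [← ht]
            generalize t.2 = μ
            induction μ using Multiset.induction with
            | empty => simp
            | cons k μ ih => rcases eq_or_ne k 0 with rfl | hk <;> simp [*] }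
      refine ⟨fun l => (if l = l₀ then t.1 else 0) + c l, fun N => ?_⟩
      have hprod : (t.2.map (ec (xv N))).prod = elemProd N l₀ := by
        show _ = ((t.2.filter fun k => k ≠ 0).map fun k => MvPolynomial.esymm (Fin N) _ k).prod
        generalize t.2 = μ
        induction μ using Multiset.induction with
        | empty => simp
        | cons k μ ih =>
          rcases eq_or_ne k 0 with rfl | hk
          · simp [ih, ec_zero]
          · simp [hk, ih, ec_eq_esymm]
      have hhom : (MvPolynomial.C (t.1.map (Nat.castRingHom ℤ))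
          * (t.2.map (ec (xv N))).prod).IsHomogeneous n :=
        ht ▸ (isHomogeneous_eprod N t.2).C_mul _
      rw [List.map_cons, List.sum_cons, map_add, hc N,
        MvPolynomial.homogeneousComponent_of_mem
          ((MvPolynomial.mem_homogeneousSubmodule n _).2 hhom), if_pos rfl, hprod]
      simp only [Polynomial.map_add, map_add, add_mul, sum_add_distrib]
      congr 1
      rw [sum_eq_single l₀ (fun l _ hl => by simp [hl]) (fun hl => absurd (mem_univ _) hl)]
      simp
    · refine ⟨c, fun N => ?_⟩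
      have hhom : (MvPolynomial.C (t.1.map (Nat.castRingHom ℤ))
          * (t.2.map (ec (xv N))).prod).IsHomogeneous t.2.sum :=
        (isHomogeneous_eprod N t.2).C_mul _
      rw [List.map_cons, List.sum_cons, map_add, hc N,
        MvPolynomial.homogeneousComponent_of_mem
          ((MvPolynomial.mem_homogeneousSubmodule _ _).2 hhom), if_neg (Ne.symm ht), zero_add]

/-- Natural unit interval graphs with clique number at most three are `e`-positive. -/
theorem ePositive_of_le_add_three {n : ℕ} {h : Fin n → ℕ} (hh : IsHess n h)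
    (h3 : ∀ i : Fin n, h i ≤ (i : ℕ) + 3) : EPositive h := by
  have g := good_all (nbr_zero h) nbr_succ (nbr_le_two h3) n
  rw [nbr_top hh] at g
  obtain ⟨s, hs, hw⟩ := g
  obtain ⟨L, hL⟩ := hs.expand
  obtain ⟨c, hc⟩ := component_expand n L
  refine ⟨c, fun N => ?_⟩
  rw [← hc N, ← hL N, ← mul_one (s N), ← hw N 1, ← chi_eq_walk hh,
    MvPolynomial.homogeneousComponent_of_mem
      ((MvPolynomial.mem_homogeneousSubmodule _ _).2 (isHomogeneous_chi h N)), if_pos rfl]

end Vale.Agent.P066.Two
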